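import Crest.Agent.N336.T.Seg

/-!
# Row 336: the tilted state has small energy (helper31)
-/

set_option autoImplicit false
set_option linter.unusedSectionVars false

open Matrix Finset
open scoped ComplexOrder MatrixOrder Matrix.Norms.L2Operator InnerProductSpace

namespace Crest.Agent.N336.T

open Crest.Agent.N336.Q Crest.Agent.N336.A

attribute [local irreducible] ev eU

namespace EnA

variable {ι : Type} [Fintype ι] [DecidableEq ι]
  {d : ι → Type} [∀ x, Fintype (d x)] [∀ x, DecidableEq (d x)] [∀ x, Nonempty (d x)]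
  {s : ℝ} {I : Set ℝ} {F y : ℕ → ℝ → ℝ} {A : ℕ → Finset ι} {m : ℕ} {Ω χ : Q.Vec (Cfg d)}
  {Y : ℕ → Q.Op d} {N : ℝ} {δ : ℕ → ℝ}

/-- one term of the Hamiltonian -/
lemma term (hS : Stat s I F A m Ω y Y χ N) {Z : Finset ι} {h : Q.Op d} (hZ : Supp Z h)
    (hh : h.IsHermitian) (hmono : ∀ i j, i ≤ j → j < m → A i ⊆ A j)
    (hterm : ∀ i j, i < j → j < m → (∃ x ∈ Z, x ∈ A i) → Z ⊆ A j)
    (hδ : ∀ j < m, 0 ≤ δ j ∧ δ j ≤ 1 / 4 ∧ (∀ x, 0 ≤ x → 0 < y j x) ∧ ∀ a b, 0 < a → 0 < b →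
      |Real.log (y j a) - Real.log (y j b)| ≤ δ j * |Real.log a - Real.log b|) :
    ∃ c : ℂ, ⟪χ, ap (seg Y 0 m * h) Ω⟫_ℂ = N * c ∧ (⟪χ, ap h χ⟫_ℂ).re - c.re ≤
      ∑ j ∈ range m, 32 * δ j ^ 2 * (if Crosses Z (A j) then (dim d Z : ℝ) ^ 2 * ‖h‖ else 0) := by
  classical
  have hnn : ∀ j ∈ range m,
      0 ≤ 32 * δ j ^ 2 * (if Crosses Z (A j) then (dim d Z : ℝ) ^ 2 * ‖h‖ else 0) := by
    intro j _
    split_ifs <;> positivity
  have hex : ∃ j, j = m ∨ (j < m ∧ ∃ x ∈ Z, x ∈ A j) := ⟨m, Or.inl rfl⟩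
  have hle : Nat.find hex ≤ m := Nat.find_min' hex (Or.inl rfl)
  have hsp := Nat.find_spec hex
  have hmin : ∀ i < Nat.find hex, ¬ ∃ x ∈ Z, x ∈ A i := fun i hi hx =>
    Nat.find_min hex hi (Or.inr ⟨by omega, hx⟩)
  generalize Nat.find hex = j at hle hsp hmin
  have hc : Commute h (seg Y 0 j) := commute_seg fun i _ hi =>
    hZ.commute (hS.adm i (by omega)).1
      (disjoint_left.2 fun x hx hx' => hmin i (by omega) ⟨x, hx, hx'⟩)
  have e1 : seg Y 0 m * h = seg Y j (m - j) * h * seg Y 0 j := by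
    rw [seg_cut Y hle, Matrix.mul_assoc, Matrix.mul_assoc, hc.eq]
  by_cases hin : j < m → Z ⊆ A j
  · refine ⟨⟪χ, ap h χ⟫_ℂ, ?_, by rw [sub_self]; exact sum_nonneg hnn⟩
    rw [e1, hS.phi j hle h fun hj => hZ.mono (hin hj)]
  push Not at hin
  obtain ⟨hj, hns⟩ := hin
  have hmeet : ∃ x ∈ Z, x ∈ A j := by
    rcases hsp with h1 | h1
    · omega
    · exact h1.2
  have hcr : Crosses Z (A j) := ⟨hmeet, not_subset.1 hns⟩
  obtain ⟨h0, h1, h2, h3⟩ := hδ j hj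
  set Yi := fr (fun x => (y j x)⁻¹) (mg (A j) (pj χ)) with hYi
  have hinv : Yi * Y j = 1 := by
    rw [hS.eq j hj, hYi, fc_mul, ← fc_one (mg (A j) (pj χ))]
    refine fc_congr fun i => ?_
    have := (h2 _ (ev_mg_mem hS.norm (A j) i).1).ne'
    rw [← Complex.ofReal_mul, inv_mul_cancel₀ this, Complex.ofReal_one]
  have e2 : seg Y 0 m * h =
      seg Y (j + 1) (m - (j + 1)) * (Y j * h * Yi) * seg Y 0 (j + 1) := by
    rw [e1, seg_split Y hj, seg_succ, zero_add]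
    simp only [Matrix.mul_assoc]
    rw [← Matrix.mul_assoc Yi, hinv, Matrix.one_mul]
  refine ⟨⟪χ, ap (Y j * h * Yi) χ⟫_ℂ, ?_, ?_⟩
  · rw [e2, hS.phi (j + 1) hj _ fun hj' => ?_]
    have hA := hmono j (j + 1) (by omega) hj'
    exact (((hS.adm j hj).1.mono hA).mul (hZ.mono (hterm j (j + 1) (by omega) hj' hmeet))).mul
      (((supp_mg _ _).fc _ (mg_posSemidef _ (pj_posSemidef χ)).1).mono hA)
  · refine le_trans ?_ (single_le_sum hnn (mem_range.2 hj))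
    have := tilt_cross (X := A j) (ψ := χ) hZ hh h0 h1 (fun x hx => h2 x hx.le) h3
    rw [← hS.eq j hj, hS.norm] at this
    rw [if_pos hcr]
    linarith

end EnA

/-- the tilted state has small energy -/
theorem energy : EnergyStmt := by
  intro ι _ _ d _ _ _ K _ h Z Ω E Δ s I F y A m δ Y χ N hL hC hS hδ
  classical
  have key : ∀ k, ∃ c : ℂ, ⟪χ, ap (seg Y 0 m * h k) Ω⟫_ℂ = N * c ∧
      (⟪χ, ap (h k) χ⟫_ℂ).re - c.re ≤ ∑ j ∈ range m, 32 * δ j ^ 2 *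
        (if Crosses (Z k) (A j) then (dim d (Z k) : ℝ) ^ 2 * ‖h k‖ else 0) := by
    intro k
    by_cases h0 : h k = 0
    · refine ⟨0, by simp [h0], ?_⟩
      simp [h0]
    exact EnA.term hS (hL.supp k) (hL.herm k) hC.mono (hC.term k h0) hδ
  choose c hc1 hc2 using key
  have hχ : ⟪χ, χ⟫_ℂ = 1 := by rw [inner_self_eq_norm_sq_to_K, hS.norm]; simp
  have hN : (N : ℂ) ≠ 0 := Complex.ofReal_ne_zero.2 hS.pos.ne'
  have e1 : ∑ k, c k = E := by
    refine mul_left_cancel₀ hN ?_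
    rw [Finset.mul_sum, ← Finset.sum_congr rfl fun k _ => hc1 k, ← inner_sum, ← ap_sum,
      ← Matrix.mul_sum, ap_mul, hL.gap.eig, map_smul, hS.chi, inner_smul_right, inner_smul_right,
      hχ]
    ring
  have e2 : ∑ k, (c k).re = E := by rw [← Complex.re_sum, e1, Complex.ofReal_re]
  have h1 := hL.gap.gap χ
  rw [hS.norm, one_pow, mul_one, ap_sum, inner_sum, Complex.re_sum, ← e2,
    ← Finset.sum_sub_distrib] at h1
  refine h1.trans ((Finset.sum_le_sum fun k _ => hc2 k).trans (le_of_eq ?_))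
  rw [Finset.sum_comm]
  simp only [cw, Finset.mul_sum]

end Crest.Agent.N336.T
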