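import Crest.Agent.N336.T.Defs

/-!
# Row 336: scalar lemmas for the patch lemma (helper37)
-/

set_option autoImplicit false

namespace Crest.Agent.N336.T.PL

open Real

/-- the tilt function -/
noncomputable def yy (D δ x : ℝ) : ℝ := (1 + D * x) ^ (-δ)

/-- the barrier -/
noncomputable def FF (D δ w : ℝ) : ℝ := (2 * δ * w ^ (-(1 / (2 * δ))) + log w - 2 * δ) / D

/-- the value of the barrier at the tilt, divided by `2 δ` -/
noncomputable def GG (D x : ℝ) : ℝ := x - log (1 + D * x) / D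

variable {D δ : ℝ}

lemma FF_one (D δ : ℝ) : FF D δ 1 = 0 := by simp [FF]

lemma barrier (hD : 0 < D) (hδ : 0 < δ) : Barrier 1 (Set.Ioi 0) (FF D δ) where
  smooth w hw := by
    have hw0 : w ≠ 0 := ne_of_gt hw
    refine ContDiffAt.contDiffWithinAt (ContDiffAt.div_const (ContDiffAt.sub (ContDiffAt.add
      (contDiffAt_const.mul (contDiffAt_id.rpow_const_of_ne hw0)) (contDiffAt_id.log hw0))
      contDiffAt_const) D)
  sub c hc M := by
    set p := 1 / (2 * δ) with hp
    have hp0 : 0 < p := by positivity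
    have hpδ : 2 * δ * p = 1 := by rw [hp]; field_simp
    set c' := c / D with hc'
    have hc0 : 0 < c' := by positivity
    set k := c' * p / 2 with hk
    have hk0 : 0 < k := by positivity
    have hM := abs_nonneg M
    have hM' := le_abs_self M
    have h1k : 0 < 1 / k := by positivity
    have hb : 0 ≤ |M| / c' + 2 * δ := by positivity
    refine ⟨exp (-(1 / k + |M| + 1)), exp_pos _, exp (|M| / c' + 2 * δ), exp_pos _,
      fun w hw h => ?_⟩
    have hw0 : 0 < w := hw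
    have hF : c * FF D δ w = c' * (2 * δ * w ^ (-p) + log w - 2 * δ) := by
      rw [FF, hc']; ring
    rw [hF, one_mul] at h
    rcases le_total w 1 with h1 | h1
    · refine ⟨?_, h1.trans (one_le_exp hb)⟩
      have hx : 0 ≤ -log w := neg_nonneg.2 (log_nonpos hw0.le h1)
      rw [min_eq_left (by linarith)] at h
      have h2 : w ^ (-p) = exp (p * -log w) := by
        rw [rpow_def_of_pos hw0]; congr 1; ring
      have h3 := quadratic_le_exp_of_nonneg (mul_nonneg hp0.le hx)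
      rw [← h2] at h3
      rw [← le_log_iff_exp_le hw0]
      set x := -log w with hxdef
      have h4 : p * x ^ 2 / 2 ≤ 2 * δ * w ^ (-p) + log w - 2 * δ := by
        have h5 := mul_le_mul_of_nonneg_left h3 (by positivity : 0 ≤ 2 * δ)
        have h6 : 2 * δ * (1 + p * x + (p * x) ^ 2 / 2) =
            2 * δ + 2 * δ * p * x + 2 * δ * p * (p * x ^ 2 / 2) := by ring
        rw [h6, hpδ] at h5
        linarith
      have h7 : k * x ^ 2 - x ≤ M := by
        have := mul_le_mul_of_nonneg_left h4 hc0.le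
        have e : c' * (p * x ^ 2 / 2) = k * x ^ 2 := by rw [hk]; ring
        linarith
      by_contra hlt
      have h8 : 1 / k + |M| + 1 < x := by linarith
      have h9 : k * (|M| + 1) ≤ k * x - 1 := by
        have := mul_le_mul_of_nonneg_left h8.le hk0.le
        rw [add_assoc, mul_add, mul_one_div_cancel hk0.ne'] at this
        linarith
      have h10 : 1 / k * (k * (|M| + 1)) ≤ x * (k * x - 1) :=
        mul_le_mul (by linarith) h9 (by positivity) hx
      rw [← mul_assoc, one_div_mul_cancel hk0.ne'] at h10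
      nlinarith
    · refine ⟨(exp_le_one_iff.2 (by linarith)).trans h1, ?_⟩
      rw [min_eq_right (log_nonneg h1), add_zero] at h
      rw [← log_le_iff_le_exp hw0, ← sub_le_iff_le_add, le_div_iff₀ hc0]
      have h2 : 0 ≤ c' * (2 * δ * w ^ (-p)) := by positivity
      linarith

lemma yy_deriv (hD : 0 < D) (hδ : 0 < δ) {w : ℝ} (hw : 0 < w) :
    yy D δ (-(w * deriv (FF D δ) w) / 1) = √w := by
  have h1 : HasDerivAt (FF D δ)
      ((2 * δ * (-(1 / (2 * δ)) * w ^ (-(1 / (2 * δ)) - 1)) + w⁻¹) / D) w :=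
    ((((hasDerivAt_rpow_const (Or.inl hw.ne')).const_mul (2 * δ)).add
      (hasDerivAt_log hw.ne')).sub_const (2 * δ)).div_const D
  have h2 : 1 + D * (-(w * deriv (FF D δ) w) / 1) = w ^ (-(1 / (2 * δ))) := by
    rw [h1.deriv, rpow_sub_one hw.ne']
    field_simp
    ring
  rw [yy, h2, ← rpow_mul hw.le, sqrt_eq_rpow]
  congr 1
  field_simp

lemma one_add_pos (hD : 0 < D) {x : ℝ} (hx : 0 ≤ x) : 0 < 1 + D * x := by positivity

lemma yy_pos (hD : 0 < D) (δ : ℝ) {x : ℝ} (hx : 0 ≤ x) : 0 < yy D δ x :=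
  rpow_pos_of_pos (one_add_pos hD hx) _

lemma yy_le_one (hD : 0 < D) (hδ : 0 ≤ δ) {x : ℝ} (hx : 0 ≤ x) : yy D δ x ≤ 1 :=
  rpow_le_one_of_one_le_of_nonpos (by have := mul_nonneg hD.le hx; linarith) (by linarith)

lemma le_yy (hD : 0 < D) (hδ : 0 ≤ δ) (hδ1 : δ ≤ 1) {x : ℝ} (hx : 0 ≤ x) (hx1 : x ≤ 1) :
    (1 + D)⁻¹ ≤ yy D δ x := by
  have h0 := mul_nonneg hD.le hx
  have h1 : D * x ≤ D := mul_le_of_le_one_right hD.le hx1
  rw [← rpow_neg_one]
  exact (rpow_le_rpow_of_exponent_le (by linarith) (by linarith)).trans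
    (rpow_le_rpow_of_nonpos (one_add_pos hD hx) (by linarith) (by linarith))

lemma yy_add (hD : 0 < D) (δ e : ℝ) {x : ℝ} (hx : 0 ≤ x) :
    yy D (δ + e) x = yy D δ x * yy D e x := by
  rw [yy, yy, yy, neg_add, rpow_add (one_add_pos hD hx)]

lemma log_yy (hD : 0 < D) (δ : ℝ) {x : ℝ} (hx : 0 ≤ x) :
    log (yy D δ x) = -δ * log (1 + D * x) := log_rpow (one_add_pos hD hx) _

lemma yy_lip (hD : 0 < D) (hδ : 0 ≤ δ) {a b : ℝ} (ha : 0 < a) (hb : 0 < b) :
    |log (yy D δ a) - log (yy D δ b)| ≤ δ * |log a - log b| := by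
  rw [log_yy hD δ ha.le, log_yy hD δ hb.le, ← mul_sub, abs_mul, abs_neg, abs_of_nonneg hδ]
  refine mul_le_mul_of_nonneg_left ?_ hδ
  have key : ∀ {a b : ℝ}, 0 < a → 0 < b → a ≤ b →
      |log (1 + D * a) - log (1 + D * b)| ≤ |log a - log b| := by
    intro a b ha hb hab
    have h1 := one_add_pos hD ha.le
    have h2 := one_add_pos hD hb.le
    have h3 : log (1 + D * a) ≤ log (1 + D * b) := log_le_log h1 (by gcongr)
    have h4 : log a ≤ log b := log_le_log ha hab
    have h5 : log ((1 + D * b) * a) ≤ log (b * (1 + D * a)) :=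
      log_le_log (by positivity) (by nlinarith)
    rw [log_mul h2.ne' ha.ne', log_mul hb.ne' h1.ne'] at h5
    rw [abs_of_nonpos (by linarith), abs_of_nonpos (by linarith)]
    linarith
  rcases le_total a b with h | h
  · exact key ha hb h
  · rw [abs_sub_comm, abs_sub_comm (log a)]; exact key hb ha h

lemma FF_yy (hD : 0 < D) (hδ : 0 < δ) {x : ℝ} (hx : 0 ≤ x) :
    FF D δ (yy D δ x ^ 2) = 2 * δ * GG D x := by
  have h := one_add_pos hD hx
  rw [sq, ← yy_add hD δ δ hx, FF, log_yy hD _ hx, yy, ← rpow_mul h.le,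
    show -(δ + δ) * -(1 / (2 * δ)) = 1 by field_simp; ring, rpow_one, GG]
  field_simp
  ring

lemma GG_nonneg (hD : 0 < D) {x : ℝ} (hx : 0 ≤ x) : 0 ≤ GG D x := by
  have := log_le_sub_one_of_pos (one_add_pos hD hx)
  rw [GG, sub_nonneg, div_le_iff₀ hD]
  linarith

lemma GG_le (hD : 0 < D) {x : ℝ} (hx : 0 ≤ x) : GG D x ≤ x := by
  have h0 := mul_nonneg hD.le hx
  have : 0 ≤ log (1 + D * x) / D := div_nonneg (log_nonneg (by linarith)) hD.le
  rw [GG]; linarith

lemma log_one_add_mem (hD : 0 < D) {x : ℝ} (hx : 0 ≤ x) (hx1 : x ≤ 1) :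
    0 ≤ log (1 + D * x) ∧ log (1 + D * x) ≤ log (1 + D) := by
  have h0 := mul_nonneg hD.le hx
  have h1 : D * x ≤ D := mul_le_of_le_one_right hD.le hx1
  exact ⟨log_nonneg (by linarith), log_le_log (by linarith) (by linarith)⟩

lemma yy_eq_exp (hD : 0 < D) (e : ℝ) {x : ℝ} (hx : 0 ≤ x) :
    yy D e x = exp (-(e * log (1 + D * x))) := by
  rw [yy, rpow_def_of_pos (one_add_pos hD hx)]; congr 1; ring

lemma abs_yy_sub_one (hD : 0 < D) {e : ℝ} (he : 0 ≤ e) {x : ℝ} (hx : 0 ≤ x) (hx1 : x ≤ 1) :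
    |yy D e x - 1| ≤ e * log (1 + D) := by
  obtain ⟨h1, h2⟩ := log_one_add_mem hD hx hx1
  rw [abs_of_nonpos (sub_nonpos.2 (yy_le_one hD he hx)), yy_eq_exp hD e hx]
  have h3 := add_one_le_exp (-(e * log (1 + D * x)))
  have h4 : e * log (1 + D * x) ≤ e * log (1 + D) := by gcongr
  linarith

lemma exp_neg_sub_one_le {z : ℝ} (hz : 0 ≤ z) : exp (-z) - 1 ≤ -z + z ^ 2 := by
  have h1 := add_one_le_exp z
  have h2 : exp (-z) * exp z = 1 := by rw [← exp_add]; simp
  have h3 := exp_pos (-z)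
  have h4 : exp (-z) * (z + 1) ≤ 1 := (mul_le_mul_of_nonneg_left h1 h3.le).trans h2.le
  by_contra h
  have h5 : (1 - z + z ^ 2) * (z + 1) < exp (-z) * (z + 1) := by gcongr; linarith
  nlinarith [pow_nonneg hz 3]

lemma yy_sub_one_mul (hD : 0 < D) {e : ℝ} (he : 0 ≤ e) {x : ℝ} (hx : 0 ≤ x) (hx1 : x ≤ 1) :
    (yy D e x - 1) * x ≤ -e * (x * log (1 + D * x)) + (e * log (1 + D)) ^ 2 * x := by
  obtain ⟨h1, h2⟩ := log_one_add_mem hD hx hx1
  have h3 := exp_neg_sub_one_le (mul_nonneg he h1)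
  rw [← yy_eq_exp hD e hx] at h3
  have h4 : (e * log (1 + D * x)) ^ 2 ≤ (e * log (1 + D)) ^ 2 := by gcongr
  have h5 := mul_le_mul_of_nonneg_right (h3.trans (add_le_add_right h4 _)) hx
  linarith

lemma ind_mul_ge {a x : ℝ} (ha : 0 < a) (hx : 0 ≤ x) (hx1 : x ≤ 1) :
    x - negMulLog x / a ≤ (if exp (-a) ≤ x then 1 else 0) * x := by
  split_ifs with h
  · have := div_nonneg (negMulLog_nonneg hx hx1) ha.le
    linarith
  · rw [zero_mul, sub_nonpos, le_div_iff₀ ha]
    rcases hx.eq_or_lt with rfl | hx0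
    · simp
    · have h1 : log x ≤ -a := (log_le_iff_le_exp hx0).2 (not_le.1 h).le
      rw [negMulLog]
      nlinarith

lemma ind_le {a x : ℝ} (hx : 0 ≤ x) : (if exp (-a) ≤ x then 1 else 0 : ℝ) ≤ exp a * x := by
  split_ifs with h
  · have h1 : exp a * exp (-a) = 1 := by rw [← exp_add]; simp
    rw [← h1]; gcongr
  · positivity

lemma typ_point (hD : 0 < D) {t μ x p : ℝ} (ht : 0 ≤ t) (hμ : 0 ≤ μ) (h : exp (10 * t) ≤ D * μ)
    (hx : 0 ≤ x) (hp : 0 ≤ p) (hp1 : p ≤ 1) : 10 * t * ((x - μ) * p) ≤ x * log (1 + D * x) := by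
  have h0 := mul_nonneg hD.le hx
  rcases le_total x μ with h1 | h1
  · exact (mul_nonpos_of_nonneg_of_nonpos (by positivity)
      (mul_nonpos_of_nonpos_of_nonneg (by linarith) hp)).trans
      (mul_nonneg hx (log_nonneg (by linarith)))
  · have h2 : 10 * t ≤ log (1 + D * x) := by
      rw [le_log_iff_exp_le (by linarith)]
      have : D * μ ≤ D * x := by gcongr
      linarith
    have h3 : (x - μ) * p ≤ x := (mul_le_of_le_one_right (by linarith) hp1).trans (by linarith)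
    calc 10 * t * ((x - μ) * p) ≤ 10 * t * x := by gcongr
      _ = x * (10 * t) := mul_comm _ _
      _ ≤ _ := by gcongr

lemma exp_le_D_mu (s₀ t : ℝ) :
    exp (10 * t) ≤ exp (10 * s₀ + 10 * t + 4) * (exp (-(10 * s₀ + 1)) / 10) := by
  rw [← mul_div_assoc, ← exp_add, show 10 * s₀ + 10 * t + 4 + -(10 * s₀ + 1) = 10 * t + 3 by ring,
    exp_add, mul_div_assoc]
  refine le_mul_of_one_le_right (exp_pos _).le ?_
  rw [le_div_iff₀ (by norm_num), one_mul, show (3 : ℝ) = 1 + 1 + 1 by norm_num, exp_add, exp_add]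
  nlinarith [exp_one_gt_d9, mul_pos (exp_pos 1) (exp_pos 1)]

end Crest.Agent.N336.T.PL
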