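import Crest.Agent.N336.T.Seg
import Crest.Agent.N336.T.PLS

/-!
# Row 336: the abstract patch lemma `tiltPL : EngStmt → EnergyStmt → TiltPLStmt` (helper37)
-/

set_option autoImplicit false
set_option linter.unusedSectionVars false

open Matrix Finset
open scoped ComplexOrder MatrixOrder Matrix.Norms.L2Operator InnerProductSpace

namespace Crest.Agent.N336.T

open Crest.Agent.N336.Q Crest.Agent.N336.A

attribute [local irreducible] ev eU

namespace PL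

variable {ι : Type} [Fintype ι] [DecidableEq ι]
  {d : ι → Type} [∀ x, Fintype (d x)] [∀ x, DecidableEq (d x)] [∀ x, Nonempty (d x)]
  {D δ : ℝ} {A : ℕ → Finset ι} {m : ℕ} {Ω χ : Q.Vec (Cfg d)}

/-- the tilt family of a unit vector -/
noncomputable def Yd (D δ : ℝ) (A : ℕ → Finset ι) (χ : Q.Vec (Cfg d)) (j : ℕ) : Q.Op d :=
  fr (yy D δ) (mg (A j) (pj χ))

lemma supp_fr_mg (g : ℝ → ℝ) (X : Finset ι) (χ : Q.Vec (Cfg d)) : Supp X (fr g (mg X (pj χ))) :=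
  (supp_mg _ _).fc _ (mg_isHermitian _ (pj_isHermitian χ))

lemma adm_Yd (hD : 0 < D) (hχ : ‖χ‖ = 1) : Adm (Set.Ioi 0) A m (Yd D δ A χ) := fun j _ =>
  ⟨supp_fr_mg _ _ _, fun i => by
    rw [Yd, fr_sq]
    exact ev_pos (Eng.fr_posDef fun i => pow_pos (yy_pos hD δ (ev_mg_mem hχ _ i).1) 2) i⟩

lemma norm_Yd_le (hD : 0 < D) (hδ : 0 ≤ δ) (hχ : ‖χ‖ = 1) (j : ℕ) : ‖Yd D δ A χ j‖ ≤ 1 := by
  rw [Yd]
  refine norm_fc_le zero_le_one fun i => ?_
  rw [Complex.norm_real, Real.norm_eq_abs, abs_of_pos (yy_pos hD δ (ev_mg_mem hχ _ i).1)]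
  exact yy_le_one hD hδ (ev_mg_mem hχ _ i).1

lemma le_norm_Yd (hD : 0 < D) (hδ1 : δ ≤ 1) (hχ : ‖χ‖ = 1) (hδ : 0 ≤ δ) (j : ℕ)
    (v : Q.Vec (Cfg d)) : (1 + D)⁻¹ * ‖v‖ ≤ ‖ap (Yd D δ A χ j) v‖ := by
  refine (pow_le_pow_iff_left₀ (by positivity) (norm_nonneg _) two_ne_zero).1 ?_
  rw [Yd, norm_ap_fc_sq, mul_pow, ← sum_sq_inner_evec (mg (A j) (pj χ)), mul_sum]
  refine sum_le_sum fun i _ => mul_le_mul_of_nonneg_right ?_ (sq_nonneg _)
  obtain ⟨h0, h1⟩ := ev_mg_mem hχ (A j) i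
  rw [Complex.norm_real, Real.norm_eq_abs, abs_of_pos (yy_pos hD δ h0)]
  exact pow_le_pow_left₀ (by positivity) (le_yy hD hδ hδ1 h0 h1) 2

lemma sum_FF_yy (hD : 0 < D) (hδ : 0 < δ) (X : Finset ι) (χ : Q.Vec (Cfg d)) :
    ∑ i, FF D δ (yy D δ (ev (red (sb X) (pj χ)) i) ^ 2) =
      2 * δ * ∑ i, GG D (ev (red (sb X) (pj χ)) i) := by
  rw [mul_sum]
  exact sum_congr rfl fun i _ => FF_yy hD hδ (ev_nonneg (rd_psd X χ) i)

lemma sum_GG_nonneg (hD : 0 < D) (X : Finset ι) (χ : Q.Vec (Cfg d)) :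
    0 ≤ ∑ i, GG D (ev (red (sb X) (pj χ)) i) :=
  sum_nonneg fun i _ => GG_nonneg hD (ev_nonneg (rd_psd X χ) i)

lemma sum_GG_le (hD : 0 < D) (X : Finset ι) (hχ : ‖χ‖ = 1) :
    ∑ i, GG D (ev (red (sb X) (pj χ)) i) ≤ 1 := by
  rw [← ((dens_pj hχ).red (sb X)).sum_ev]
  exact sum_le_sum fun i _ => GG_le hD (ev_nonneg (rd_psd X χ) i)

lemma LL_Yd (hD : 0 < D) (hδ : 0 < δ) (Ω χ : Q.Vec (Cfg d)) :
    LL 1 (fun _ => FF D δ) A m Ω (Yd D δ A χ) = Real.log (‖ap (seg (Yd D δ A χ) 0 m) Ω‖ ^ 2) +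
      2 * δ * ∑ j ∈ range m, ∑ i, GG D (ev (red (sb (A j)) (pj χ)) i) := by
  rw [LL, one_mul, mul_sum]
  congr 1
  refine sum_congr rfl fun j _ => ?_
  rw [Yd, fr_sq, tX_fr_mg _ _ _ (pj_isHermitian χ), sum_FF_yy hD hδ]

/-- a state close to a state of small entropy has large Schmidt weights -/
theorem typ (hΩ : ‖Ω‖ = 1) (hχ : ‖χ‖ = 1) (h : 1 - ‖⟪Ω, χ⟫_ℂ‖ ^ 2 ≤ 1 / 400) {X : Finset ι}
    {s₀ t : ℝ} (hs₀ : 0 ≤ s₀) (ht : 0 ≤ t) (hS : SX X (pj Ω) ≤ s₀) :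
    7 * t ≤ ∑ i, ev (red (sb X) (pj χ)) i *
      Real.log (1 + Real.exp (10 * s₀ + 10 * t + 4) * ev (red (sb X) (pj χ)) i) := by
  set a := 10 * s₀ + 1 with ha
  have ha0 : 0 < a := by positivity
  have hρ := (dens_pj hΩ).red (sb X)
  have hσ := (dens_pj hχ).red (sb X)
  set g : ℝ → ℝ := fun x => if Real.exp (-a) ≤ x then 1 else 0 with hg
  have hg0 : ∀ x, 0 ≤ g x := fun x => by simp only [hg]; split_ifs <;> norm_num
  have hg1 : ∀ x, ‖(g x : ℂ)‖ ≤ 1 := fun x => by simp only [hg]; split_ifs <;> simp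
  set P := fr g (red (sb X) (pj Ω)) with hP
  have hP0 : P.PosSemidef := fr_posSemidef fun i => hg0 _
  have hP1 : ‖P‖ ≤ 1 := norm_fc_le zero_le_one fun i => hg1 _
  have h1 : (trace P).re ≤ Real.exp a := by
    rw [hP, re_trace_fr, ← mul_one (Real.exp a), ← hρ.sum_ev, mul_sum]
    exact sum_le_sum fun i _ => ind_le (ev_nonneg hρ.psd i)
  have h2 : 9 / 10 ≤ (⟪Ω, ap (lift X P) Ω⟫_ℂ).re := by
    have e := Eng.qf_fr_mg g X Ω
    rw [Eng.qf, mg, ← emb_fr _ _ hρ.herm] at e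
    rw [e]
    refine le_trans ?_ (sum_le_sum fun i _ =>
      ind_mul_ge ha0 (ev_nonneg hρ.psd i) (hρ.ev_le_one i))
    rw [sum_sub_distrib, hρ.sum_ev, ← sum_div]
    have : SX X (pj Ω) / a ≤ 1 / 10 := by rw [div_le_iff₀ ha0]; linarith
    exact le_trans (by linarith) (le_refl (1 - SX X (pj Ω) / a))
  have h3 := close hΩ hχ (emb_posSemidef (sb X) hP0)
  have h4 : Real.sqrt (1 - ‖⟪Ω, χ⟫_ℂ‖ ^ 2) ≤ 1 / 20 :=
    Real.sqrt_le_iff.2 ⟨by norm_num, h.trans (by norm_num)⟩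
  have h5 : ‖lift X P‖ * Real.sqrt (1 - ‖⟪Ω, χ⟫_ℂ‖ ^ 2) ≤ 1 * (1 / 20) :=
    mul_le_mul ((norm_emb_le _ _).trans hP1) h4 (Real.sqrt_nonneg _) zero_le_one
  set p : Cfg (sub (sb X) d) → ℝ := fun i =>
    (⟪evec (red (sb X) (pj χ)) i, ap P (evec (red (sb X) (pj χ)) i)⟫_ℂ).re with hp
  have h6 : (⟪χ, ap (lift X P) χ⟫_ℂ).re = ∑ i, ev (red (sb X) (pj χ)) i * p i := by
    rw [inner_lift, rd]
    conv_lhs => arg 1; arg 1; arg 2; rw [← fc_id hσ.herm]
    rw [trace_mul_fc, Complex.re_sum]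
    exact sum_congr rfl fun i _ => Complex.re_ofReal_mul _ _
  have h7 : (trace P).re = ∑ i, p i := by
    have := trace_mul_fc P (fun _ => 1) (red (sb X) (pj χ))
    rw [fc_one, Matrix.mul_one] at this
    rw [this, Complex.re_sum]
    simp only [one_mul, hp]
  have hp0 : ∀ i, 0 ≤ p i := fun i => re_inner_ap_nonneg hP0 _
  have hp1 : ∀ i, p i ≤ 1 := fun i => by
    have := (Complex.re_le_norm _).trans (norm_inner_ap_le P (evec (red (sb X) (pj χ)) i)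
      (evec (red (sb X) (pj χ)) i))
    rw [norm_evec, mul_one, mul_one] at this
    exact this.trans hP1
  have hμ : 0 ≤ Real.exp (-a) / 10 := by positivity
  refine le_trans ?_ (sum_le_sum fun i _ => typ_point (Real.exp_pos _) ht hμ (exp_le_D_mu s₀ t)
    (ev_nonneg hσ.psd i) (hp0 i) (hp1 i))
  simp only [sub_mul, ← mul_sum, sum_sub_distrib]
  rw [← h6, ← h7]
  have h8 : Real.exp (-a) / 10 * (trace P).re ≤ 1 / 10 := by
    have e : Real.exp (-a) * Real.exp a = 1 := by rw [← Real.exp_add]; simp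
    calc _ ≤ Real.exp (-a) / 10 * Real.exp a := by gcongr
      _ = 1 / 10 := by rw [div_mul_eq_mul_div, e]
  have h9 : 7 / 10 ≤ (⟪χ, ap (lift X P) χ⟫_ℂ).re - Real.exp (-a) / 10 * (trace P).re := by
    linarith
  nlinarith

/-- the constant of the second order terms -/
noncomputable def KK (D : ℝ) (m : ℕ) : ℝ :=
  2 * m * Real.log (1 + D) ^ 2 + 3 * m ^ 2 * Real.log (1 + D) ^ 2 * (1 + D) ^ (2 * m)

/-- increasing the exponent decreases the functional -/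
theorem step (hD : 0 < D) (hδ : 0 < δ) {e t N : ℝ} (he : 0 ≤ e) (h1 : δ + e ≤ 1) (hΩ : ‖Ω‖ = 1)
    {Y : ℕ → Q.Op d} (hS : Stat 1 (Set.Ioi 0) (fun _ => FF D δ) A m Ω (fun _ => yy D δ) Y χ N)
    (htyp : ∀ j < m, 7 * t ≤ ∑ i, ev (red (sb (A j)) (pj χ)) i *
      Real.log (1 + D * ev (red (sb (A j)) (pj χ)) i)) :
    LL 1 (fun _ => FF D (δ + e)) A m Ω (Yd D (δ + e) A χ) ≤
      LL 1 (fun _ => FF D δ) A m Ω Y - e * (2 * m * (7 * t - 1) - KK D m * e) := by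
  have hχ := hS.norm
  have hN := hS.pos
  have hY : ∀ j < m, Y j = Yd D δ A χ j := hS.eq
  have hl : 0 ≤ Real.log (1 + D) := Real.log_nonneg (by linarith)
  set α := e * Real.log (1 + D) with hα
  have hα0 : 0 ≤ α := mul_nonneg he hl
  set Y' := Yd D (δ + e) A χ with hY'
  set a : ℕ → Q.Op d := fun j => fr (fun x => yy D e x - 1) (mg (A j) (pj χ)) with ha
  have hdiff : ∀ j < m, Y' j - Y j = Y j * a j := fun j hj => by
    rw [hY j hj, hY', Yd, Yd, ha, fc_sub, fc_mul]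
    refine fc_congr fun i => ?_
    rw [yy_add hD δ e (ev_mg_mem hχ _ i).1]
    push_cast
    ring
  have hY1 : ∀ j < m, ‖Y j‖ ≤ 1 := fun j hj => by rw [hY j hj]; exact norm_Yd_le hD hδ.le hχ j
  have ha1 : ∀ j, ‖a j‖ ≤ α := fun j => norm_fc_le hα0 fun i => by
    rw [Complex.norm_real, Real.norm_eq_abs]
    exact abs_yy_sub_one hD he (ev_mg_mem hχ _ i).1 (ev_mg_mem hχ _ i).2
  obtain ⟨t1, t2⟩ := seg_taylor (Y := Y) (Y' := Y') (m := m) hα0 fun j hj =>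
    ⟨hY1 j hj, norm_Yd_le hD (by linarith) hχ j, by
      rw [hdiff j hj]
      exact (norm_mul_le_of_le (hY1 j hj) (ha1 j)).trans (one_mul _).le⟩
  have hd : dseg Y (fun j => Y' j - Y j) m = dseg Y (fun j => Y j * a j) m :=
    sum_congr rfl fun j hj => by beta_reduce; rw [hdiff j (mem_range.1 hj)]
  rw [hd] at t2
  have hN1 : N ≤ 1 := by
    rw [← hS.norm_seg]
    refine (norm_ap_le _ _).trans ?_
    rw [hΩ, mul_one]
    exact norm_seg_le fun j _ hj => hY1 j (by omega)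
  have hN2 : (1 + D)⁻¹ ^ m ≤ N := by
    have := le_norm_seg (Y := Y) (k := 0) (l := m) (c := (1 + D)⁻¹) (by positivity)
      (fun j _ hj v => by
        rw [hY j (by omega)]; exact le_norm_Yd hD (by linarith) hχ hδ.le j v) Ω
    rwa [hΩ, mul_one, hS.norm_seg] at this
  have hv' : 0 < ‖ap (seg Y' 0 m) Ω‖ := by
    have := le_norm_seg (Y := Y') (k := 0) (l := m) (c := (1 + D)⁻¹) (by positivity)
      (fun j _ _ v => le_norm_Yd hD h1 hχ (by linarith) j v) Ω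
    rw [hΩ, mul_one] at this
    exact lt_of_lt_of_le (by positivity) this
  have hq : ∀ j ∈ range m, (⟪χ, ap (a j) χ⟫_ℂ).re ≤ -(7 * t * e) + α ^ 2 := fun j hj => by
    have hσ := (dens_pj hχ).red (sb (A j))
    refine (Eng.qf_fr_mg _ _ _).le.trans ((sum_le_sum fun i _ =>
      yy_sub_one_mul hD he (ev_nonneg hσ.psd i) (hσ.ev_le_one i)).trans ?_)
    rw [sum_add_distrib, ← mul_sum, ← mul_sum, hσ.sum_ev]
    have := mul_le_mul_of_nonneg_left (htyp j (mem_range.1 hj)) he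
    linarith
  have hq' := sum_le_card_nsmul _ _ _ hq
  rw [card_range, nsmul_eq_mul] at hq'
  have c1 : (⟪χ, ap (seg Y' 0 m - seg Y 0 m) Ω⟫_ℂ).re ≤
      (m * α) ^ 2 + N * (m * (-(7 * t * e) + α ^ 2)) := by
    rw [← sub_add_cancel (seg Y' 0 m - seg Y 0 m) (dseg Y (fun j => Y j * a j) m), ap_add,
      inner_add_right, Complex.add_re, hS.inner_dseg fun j _ => supp_fr_mg _ _ _,
      Complex.re_ofReal_mul, Complex.re_sum]
    have := (Complex.re_le_norm _).trans (norm_inner_ap_le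
      (seg Y' 0 m - seg Y 0 m - dseg Y (fun j => Y j * a j) m) χ Ω)
    rw [hχ, hΩ, mul_one, mul_one] at this
    exact add_le_add (this.trans t2) (mul_le_mul_of_nonneg_left hq' hN.le)
  have c2 : ‖ap (seg Y' 0 m - seg Y 0 m) Ω‖ ≤ m * α := by
    have := norm_ap_le (seg Y' 0 m - seg Y 0 m) Ω
    rw [hΩ, mul_one] at this
    exact this.trans t1
  have c3 : ‖ap (seg Y' 0 m) Ω‖ ^ 2 ≤
      N ^ 2 + 2 * N ^ 2 * (m * (-(7 * t * e) + α ^ 2)) + 3 * (m * α) ^ 2 := by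
    have e1 : ap (seg Y' 0 m) Ω = (N : ℂ) • χ + ap (seg Y' 0 m - seg Y 0 m) Ω := by
      rw [ap_sub, hS.chi, add_sub_cancel]
    rw [e1, @norm_add_sq ℂ, inner_smul_left, Complex.conj_ofReal, RCLike.re_to_complex,
      Complex.re_ofReal_mul, norm_smul, hχ, Complex.norm_real, mul_one, Real.norm_eq_abs, sq_abs]
    have b1 := mul_le_mul_of_nonneg_left c1 hN.le
    have b2 := pow_le_pow_left₀ (norm_nonneg _) c2 2
    have b3 : N * (m * α) ^ 2 ≤ 1 * (m * α) ^ 2 := by gcongr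
    linarith
  have c4 : Real.log (‖ap (seg Y' 0 m) Ω‖ ^ 2) - Real.log (N ^ 2) ≤
      2 * (m * (-(7 * t * e) + α ^ 2)) + 3 * (m * α) ^ 2 * (1 + D) ^ (2 * m) := by
    rw [← Real.log_div (by positivity) (by positivity)]
    refine (Real.log_le_sub_one_of_pos (by positivity)).trans ?_
    rw [sub_le_iff_le_add, div_le_iff₀ (by positivity)]
    have b1 : 1 ≤ (1 + D) ^ (2 * m) * N ^ 2 := by
      have b2 : 1 ≤ (1 + D) ^ m * N := by
        rwa [inv_pow, inv_le_iff_one_le_mul₀' (by positivity)] at hN2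
      rw [pow_mul', ← mul_pow]
      exact one_le_pow₀ b2
    have b3 := mul_le_mul_of_nonneg_left b1 (by positivity : 0 ≤ 3 * (m * α) ^ 2)
    linarith
  have c5 := sum_le_card_nsmul (range m) _ _ fun j _ => sum_GG_le hD (A j) hχ
  rw [card_range, nsmul_eq_mul, mul_one] at c5
  rw [LL_stat hS, hY', LL_Yd hD (by linarith), ← hY', one_mul]
  simp only [sum_FF_yy hD hδ, ← mul_sum]
  have c6 := mul_le_mul_of_nonneg_left c5 he
  have c7 : KK D m * e * e = 2 * m * α ^ 2 + 3 * (m * α) ^ 2 * (1 + D) ^ (2 * m) := by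
    rw [KK, hα]; ring
  linarith

end PL

open PL in
/-- the abstract patch lemma -/
theorem tiltPL (hE : EngStmt) (hN : EnergyStmt) : TiltPLStmt := by
  intro ι _ _ d _ _ _ K _ h Z Ω E Δ A m θ s₀ t hL hC hθ hθ1 hcw hs₀ ht hS
  have hΩ := hL.gap.norm
  rcases Nat.eq_zero_or_pos m with rfl | hm
  · exact ⟨Ω, hΩ, by simp [hΩ]⟩
  set D := Real.exp (10 * s₀ + 10 * t + 4) with hD
  have hD0 : 0 < D := Real.exp_pos _
  have hΩ0 : Ω ≠ 0 := fun h0 => by simp [h0] at hΩ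
  have hst : ∀ δ, 0 < δ → ∃ Y χ N,
      Stat 1 (Set.Ioi 0) (fun _ => FF D δ) A m Ω (fun _ => yy D δ) Y χ N := fun δ hδ =>
    hE ι d 1 _ _ _ A m Ω one_ne_zero isOpen_Ioi Set.ordConnected_Ioi subset_rfl hΩ0 hC.mono
      (fun _ _ => barrier hD0 hδ) fun _ _ w hw => yy_deriv hD0 hδ hw
  have hcw0 : ∀ X, 0 ≤ cw h Z X := fun X => sum_nonneg fun k _ => by
    split_ifs <;> positivity
  obtain ⟨n, hn⟩ := exists_nat_gt (max (KK D m * θ / 4) 0)
  have hn0 : (0 : ℝ) < n := lt_of_le_of_lt (le_max_right _ _) hn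
  have hn1 : KK D m * θ / 4 < n := lt_of_le_of_lt (le_max_left _ _) hn
  set e := θ / (2 * n) with he
  have he0 : 0 < e := by positivity
  have hne : n * e = θ / 2 := by rw [he]; field_simp
  have hKe : KK D m * e ≤ 2 := by
    rw [he, ← mul_div_assoc, div_le_iff₀ (by positivity)]; linarith
  have hm1 : (1 : ℝ) ≤ m := by exact_mod_cast hm
  have key : ∀ k : ℕ, k ≤ n → ∃ Y, Adm (Set.Ioi 0) A m Y ∧
      LL 1 (fun _ => FF D (θ / 2 + k * e)) A m Ω Y ≤ -(k * e * (10 * m * t)) := by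
    intro k
    induction k with
    | zero =>
      intro _
      have h1 : (1 : Q.Op d)ᴴ * 1 = fr (fun _ => 1) (1 : Q.Op d) := by simp [fr, fc_one]
      refine ⟨fun _ => 1, fun j _ => ⟨Supp.one _, fun i => ?_⟩, le_of_eq ?_⟩
      · rw [conjTranspose_one, Matrix.mul_one]; exact ev_pos PosDef.one i
      · simp only [LL, h1, tX_fr, FF_one]
        simp [seg_one, hΩ, tX, tF]
    | succ k ih =>
      intro hk
      obtain ⟨Y₀, hY₀, hle⟩ := ih (by omega)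
      have hk' : ((k : ℝ) + 1) * e ≤ n * e := by
        gcongr; exact_mod_cast hk
      have hk0 : 0 ≤ (k : ℝ) * e := by positivity
      have hδ : 0 < θ / 2 + k * e := by linarith
      obtain ⟨Y, χ, N, hS'⟩ := hst _ hδ
      have h1 := hN ι d K h Z Ω E Δ 1 _ _ _ A m (fun _ => θ / 2 + k * e) Y χ N hL hC hS'
        fun j _ => ⟨hδ.le, by linarith, fun x hx => yy_pos hD0 _ hx,
          fun a b ha hb => yy_lip hD0 hδ.le ha hb⟩
      have h2 : 1 - ‖⟪Ω, χ⟫_ℂ‖ ^ 2 ≤ 1 / 400 := by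
        refine le_of_mul_le_mul_left (h1.trans (le_trans (sum_le_sum fun j _ => ?_)
          (hcw.trans (le_of_eq (by ring))))) hL.pos
        have := hcw0 (A j)
        have : θ / 2 + k * e ≤ θ := by linarith
        gcongr
      have h3 := step hD0 hδ he0.le (t := t) (by linarith) hΩ hS' fun j hj =>
        typ hΩ hS'.norm h2 hs₀ (by linarith) (hS j hj)
      have h4 := hS'.min Y₀ hY₀
      refine ⟨_, adm_Yd (δ := θ / 2 + k * e + e) hD0 hS'.norm, ?_⟩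
      have e1 : θ / 2 + ((k + 1 : ℕ) : ℝ) * e = θ / 2 + k * e + e := by push_cast; ring
      rw [e1]
      have h5 : 10 * m * t ≤ 2 * m * (7 * t - 1) - KK D m * e := by nlinarith
      have h6 := mul_le_mul_of_nonneg_left h5 he0.le
      push_cast
      linarith
  obtain ⟨Y₀, hY₀, hle⟩ := key n le_rfl
  rw [hne, add_halves] at hle
  obtain ⟨Y, χ, N, hS'⟩ := hst θ hθ
  refine ⟨χ, hS'.norm, ?_⟩
  have h1 := (hS'.min Y₀ hY₀).trans hle
  rw [LL_stat hS', one_mul] at h1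
  simp only [sum_FF_yy hD0 hθ] at h1
  have h2 : 0 ≤ ∑ j ∈ range m, 2 * θ * ∑ i, GG D (ev (red (sb (A j)) (pj χ)) i) :=
    sum_nonneg fun j _ => mul_nonneg (by positivity) (sum_GG_nonneg hD0 _ _)
  have h3 : seg Y 0 m = seg (fun j => fr (fun x => (1 + D * x) ^ (-θ)) (mg (A j) (pj χ))) 0 m :=
    seg_congr fun j _ hj => hS'.eq j (by omega)
  rw [← h3, hS'.norm_seg, ← Real.log_le_iff_le_exp hS'.pos]
  rw [Real.log_pow] at h1
  push_cast at h1
  linarith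

end Crest.Agent.N336.T
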