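import Crest.Agent.N336.T.Defs

/-!
# Row 336: the patch lemma from its abstract form (helper63)
-/

set_option autoImplicit false
set_option linter.unusedSectionVars false

open Matrix Finset
open scoped ComplexOrder MatrixOrder Matrix.Norms.L2Operator InnerProductSpace

namespace Crest.Agent.N336.T

open Crest.Agent.N336.Q Crest.Agent.N336.A

attribute [local irreducible] ev eU

section matrices

variable {n : Type} [Fintype n] [DecidableEq n]

lemma tel {P : Matrix n n ℂ} (hP : ‖P‖ ≤ 1) {B : ℕ → Matrix n n ℂ} {e : ℝ} {Ω : Q.Vec n}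
    (hΩ : ‖Ω‖ = 1) (m : ℕ) (h : ∀ j < m, ‖B j‖ ≤ 1 ∧ ‖P * B j - P‖ ≤ e) :
    ‖ap P Ω‖ ≤ ‖ap (seg B 0 m) Ω‖ + m * e := by
  have key : ‖ap (seg B 0 m) Ω‖ ≤ 1 ∧ ‖ap P Ω - ap P (ap (seg B 0 m) Ω)‖ ≤ m * e := by
    induction m with
    | zero => simp [seg, hΩ]
    | succ m ih =>
      obtain ⟨h1, h2⟩ := ih fun j hj => h j (by omega)
      obtain ⟨h3, h4⟩ := h m (by omega)
      rw [seg, zero_add, ap_mul]
      refine ⟨(norm_ap_le _ _).trans (mul_le_one₀ h3 (norm_nonneg _) h1), ?_⟩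
      have h5 := (norm_ap_le (P * B m - P) (ap (seg B 0 m) Ω)).trans
        (mul_le_of_le_one_right (norm_nonneg _) h1)
      rw [ap_sub, ap_mul, norm_sub_rev] at h5
      have := norm_sub_le_norm_sub_add_norm_sub (ap P Ω) (ap P (ap (seg B 0 m) Ω))
        (ap P (ap (B m) (ap (seg B 0 m) Ω)))
      push_cast
      linarith
  have h1 := (norm_ap_le P (ap (seg B 0 m) Ω)).trans (mul_le_of_le_one_left (norm_nonneg _) hP)
  linarith [norm_le_norm_add_norm_sub' (ap P Ω) (ap P (ap (seg B 0 m) Ω)), key.2]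

lemma pj_mul_self {v : Q.Vec n} (h : ‖v‖ = 1) : pj v * pj v = pj v := by
  rw [mul_kb, ap_kb, inner_self_eq_norm_sq_to_K, h]; simp

/-- one Gram–Schmidt step -/
lemma gs_vec {k : Matrix n n ℂ} (h1 : kᴴ = k) (h2 : k * k = k) (a : Q.Vec n) :
    k * pj a = pj a ∨ ∃ b : Q.Vec n, ‖b‖ = 1 ∧ k * pj b = 0 ∧ (k + pj b) * pj a = pj a := by
  by_cases h : a - ap k a = 0
  · exact Or.inl (by rw [mul_kb, ← sub_eq_zero.1 h])
  set w := a - ap k a with hw
  have h0 : (‖w‖ : ℂ) ≠ 0 := by simpa using h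
  have h3 : ap k w = 0 := by rw [hw, map_sub, ← ap_mul, h2, sub_self]
  have h4 : ⟪w, a⟫_ℂ = (‖w‖ : ℂ) ^ 2 := by
    have : ⟪w, ap k a⟫_ℂ = 0 := by rw [inner_ap_right, h1, h3, inner_zero_left]
    rw [← sub_zero ⟪w, a⟫_ℂ, ← this, ← inner_sub_right, inner_self_eq_norm_sq_to_K]; rfl
  refine Or.inr ⟨(‖w‖ : ℂ)⁻¹ • w, by simp [norm_smul, h], ?_, ?_⟩
  · rw [mul_kb, map_smul, h3, smul_zero]
    ext i j; simp [kb_apply]
  · rw [mul_kb, ap_add, ap_kb, inner_smul_left, h4, smul_smul, map_inv₀, Complex.conj_ofReal,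
      show (‖w‖ : ℂ)⁻¹ * (‖w‖ : ℂ) ^ 2 * (‖w‖ : ℂ)⁻¹ = 1 by field_simp, one_smul, hw,
      add_sub_cancel]

end matrices

section sites

variable {ι : Type} [Fintype ι] [DecidableEq ι]
  {d : ι → Type} [∀ x, Fintype (d x)] [∀ x, DecidableEq (d x)] [∀ x, Nonempty (d x)]
  {κ : Type} {A : κ → Finset ι}

/-- vectors on one of the regions -/
abbrev Cyl (d : ι → Type) (A : κ → Finset ι) : Type := Σ j, Q.Vec (Cfg (sub (sb (A j)) d))

/-- the cylinder projector -/
noncomputable def cyl (p : Cyl d A) : Q.Op d := lift (A p.1) (pj p.2)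

lemma cyl_herm (p : Cyl d A) : (cyl p)ᴴ = cyl p := emb_isHermitian _ (pj_isHermitian _)

/-- orthonormal families -/
structure Orth (F : Finset (Cyl d A)) : Prop where
  norm : ∀ p ∈ F, ‖p.2‖ = 1
  orth : ∀ p ∈ F, ∀ p' ∈ F, p ≠ p' → cyl p * cyl p' = 0

variable {F : Finset (Cyl d A)}

lemma Orth.sum_mul (H : Orth F) {p : Cyl d A} (hp : p ∈ F) : (∑ x ∈ F, cyl x) * cyl p = cyl p := by
  rw [Finset.sum_mul, Finset.sum_eq_single_of_mem p hp fun x hx h => H.orth x hx p hp h, cyl,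
    ← map_mul, pj_mul_self (H.norm p hp)]

lemma sum_cyl_herm (F : Finset (Cyl d A)) : (∑ x ∈ F, cyl x)ᴴ = ∑ x ∈ F, cyl x := by
  simp only [conjTranspose_sum, cyl_herm]

lemma Orth.idem (H : Orth F) : (∑ x ∈ F, cyl x) * ∑ x ∈ F, cyl x = ∑ x ∈ F, cyl x := by
  rw [Finset.mul_sum]
  exact Finset.sum_congr rfl fun p hp => H.sum_mul hp

/-- Gram–Schmidt along a decreasing chain of regions -/
theorem gs [LinearOrder κ] (hA : ∀ i j, i ≤ j → A j ⊆ A i) (G : Finset (Cyl d A)) :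
    ∃ F : Finset (Cyl d A), F.card ≤ G.card ∧ Orth F ∧ (∀ p ∈ F, ∃ g ∈ G, p.1 = g.1) ∧
      ∀ g ∈ G, (∑ x ∈ F, cyl x) * cyl g = cyl g := by
  classical
  induction G using Finset.induction_on_min_value (fun p : Cyl d A => p.1) with
  | empty => exact ⟨∅, le_rfl, ⟨by simp, by simp⟩, by simp, by simp⟩
  | insert g G hg hmin ih =>
    obtain ⟨F, h1, H, h2, h3⟩ := ih
    have hs : Supp (A g.1) (∑ x ∈ F, cyl x) := Supp.sum fun p hp => by
      obtain ⟨x, hx, e⟩ := h2 p hp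
      exact (supp_lift _ _).mono (hA _ _ (e ▸ hmin x hx))
    obtain ⟨k, hk⟩ := hs.exists_lift
    rw [card_insert_of_notMem hg]
    rcases gs_vec (k := k) (isHermitian_of_emb (hk ▸ sum_cyl_herm F))
      (emb_injective _ (by rw [map_mul, hk, H.idem])) g.2 with h | ⟨b, hb, h4, h5⟩
    · refine ⟨F, by omega, H, fun p hp => (h2 p hp).imp fun x hx => ⟨mem_insert_of_mem hx.1, hx.2⟩,
        forall_mem_insert _ _ _ |>.2 ⟨by rw [← hk, cyl, ← map_mul, h], h3⟩⟩
    have a1 : (∑ x ∈ F, cyl x) * cyl ⟨g.1, b⟩ = 0 := by rw [← hk, cyl, ← map_mul, h4, map_zero]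
    have a2 : cyl ⟨g.1, b⟩ * (∑ x ∈ F, cyl x) = 0 := by
      rw [← sum_cyl_herm, ← cyl_herm, ← conjTranspose_mul, a1, conjTranspose_zero]
    have a3 : ∀ p ∈ F, cyl ⟨g.1, b⟩ * cyl p = 0 := fun p hp => by
      rw [← H.sum_mul hp, ← Matrix.mul_assoc, a2, Matrix.zero_mul]
    have a4 : (⟨g.1, b⟩ : Cyl d A) ∉ F := fun h => by
      have h6 := a3 _ h
      rw [cyl, ← map_mul, pj_mul_self hb, ← map_zero (lift (A g.1))] at h6
      have h7 := trace_pj b
      rw [emb_injective _ h6, hb] at h7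
      simp at h7
    refine ⟨insert ⟨g.1, b⟩ F, by rw [card_insert_of_notMem a4]; omega,
      ⟨fun p hp => ?_, fun p hp p' hp' hne => ?_⟩, fun p hp => ?_,
      forall_mem_insert _ _ _ |>.2 ⟨?_, fun x hx => ?_⟩⟩
    · rcases mem_insert.1 hp with rfl | hp
      exacts [hb, H.norm p hp]
    rotate_left
    · rcases mem_insert.1 hp with rfl | hp
      · exact ⟨g, mem_insert_self _ _, rfl⟩
      · exact (h2 p hp).imp fun x hx => ⟨mem_insert_of_mem hx.1, hx.2⟩
    rotate_right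
    · rcases mem_insert.1 hp with rfl | hp <;> rcases mem_insert.1 hp' with rfl | hp'
      · exact absurd rfl hne
      · exact a3 _ hp'
      · rw [← cyl_herm p, ← cyl_herm ⟨g.1, b⟩, ← conjTranspose_mul, a3 p hp, conjTranspose_zero]
      · exact H.orth p hp p' hp' hne
    · rw [sum_insert a4, ← hk, cyl, cyl, ← map_add, ← map_mul, add_comm, h5]
    · rw [sum_insert a4, Matrix.add_mul, h3 x hx, ← h3 x hx, ← Matrix.mul_assoc, a2,
        Matrix.zero_mul, zero_add]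

lemma one_sub_rpow_le {u θ : ℝ} (hu : 0 ≤ u) (hθ : 0 ≤ θ) :
    0 ≤ (1 + u) ^ (-θ) ∧ (1 + u) ^ (-θ) ≤ 1 ∧ 1 - (1 + u) ^ (-θ) ≤ θ * u := by
  refine ⟨by positivity, Real.rpow_le_one_of_one_le_of_nonpos (by linarith) (by linarith), ?_⟩
  rw [Real.rpow_def_of_pos (by positivity)]
  nlinarith [Real.add_one_le_exp (Real.log (1 + u) * -θ),
    Real.log_le_sub_one_of_pos (show 0 < 1 + u by positivity)]

lemma cut_le {X : Finset ι} {χ : Q.Vec (Cfg d)} {P : Q.Op d} (hP : ‖P‖ ≤ 1) {D τ θ : ℝ}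
    (hD : 0 ≤ D) (hτ : 0 ≤ τ) (hθ : 0 ≤ θ) (h : ∀ i, τ < D * ev (rd X χ) i → P * su X χ i i = 0) :
    ‖fr (fun x => (1 + D * x) ^ (-θ)) (mg X (pj χ))‖ ≤ 1 ∧
      ‖P * fr (fun x => (1 + D * x) ^ (-θ)) (mg X (pj χ)) - P‖ ≤ θ * τ := by
  have h0 := fun i => one_sub_rpow_le
    (mul_nonneg hD (ev_nonneg (mg_posSemidef X (pj_posSemidef χ)) i)) hθ
  refine ⟨norm_fc_le zero_le_one fun i => by
    rw [Complex.norm_real, Real.norm_of_nonneg (h0 i).1]; exact (h0 i).2.1, ?_⟩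
  have e : P * fr (fun x => (1 + D * x) ^ (-θ)) (mg X (pj χ)) - P =
      P * fr (fun x => if τ < D * x then 0 else (1 + D * x) ^ (-θ) - 1) (mg X (pj χ)) := by
    nth_rewrite 2 [← Matrix.mul_one P]
    rw [← Matrix.mul_sub, ← fc_one (mg X (pj χ)), fc_sub, fr, T.fc_mg, T.fc_mg, Finset.mul_sum,
      Finset.mul_sum]
    refine Finset.sum_congr rfl fun i _ => ?_
    split_ifs with hi
    · simp [h i hi]
    · simp
  rw [e]
  refine (norm_mul_le _ _).trans ((mul_le_of_le_one_left (norm_nonneg _) hP).trans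
    (norm_fc_le (by positivity) fun i => ?_))
  rw [Complex.norm_real]
  beta_reduce
  split_ifs with hi
  · simp; positivity
  · rw [norm_sub_rev, Real.norm_of_nonneg (sub_nonneg.2 (h0 i).2.1)]
    exact (h0 i).2.2.trans (mul_le_mul_of_nonneg_left (not_lt.1 hi) hθ)

lemma card_big_le (X : Finset ι) {χ : Q.Vec (Cfg d)} (hχ : ‖χ‖ = 1) {D τ : ℝ} (hD : 0 ≤ D) :
    ((univ.filter fun i => τ < D * ev (rd X χ) i).card : ℝ) * τ ≤ D := by
  rw [← nsmul_eq_mul]
  refine (card_nsmul_le_sum _ _ _ fun i hi => (mem_filter.1 hi).2.le).trans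
    ((sum_le_sum_of_subset_of_nonneg (subset_univ _) fun i _ _ =>
      mul_nonneg hD (ev_nonneg (rd_psd X χ) i)).trans_eq ?_)
  rw [← Finset.mul_sum, sum_ev_rd, hχ]; ring

end sites

theorem patch_of (H : TiltPLStmt) : PatchStmt := by
  intro q R J Δ hq hJ hΔ
  classical
  have hT := cT_pos hq R hJ
  set c := min (1 / 4) √(Δ / (400 * 32 * cT q R J)) with hc
  have hc0 : 0 < c := by positivity
  have hc1 : c ≤ 1 / 4 := min_le_left _ _
  have hc2 : c ^ 2 ≤ Δ / (400 * 32 * cT q R J) :=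
    (Real.le_sqrt hc0.le (by positivity)).1 (min_le_right _ _)
  refine ⟨c, 15, hc0, by norm_num, fun Λ _ _ s m nb A s₀ t hm hnb hs ht h1 h2 h3 h4 => ?_⟩
  have : ∀ _ : Λ, Nonempty (Fin q) := fun _ => ⟨⟨0, hq⟩⟩
  have hm' : (1 : ℝ) ≤ m := by exact_mod_cast hm
  have hnb' : (m : ℝ) ≤ nb := by exact_mod_cast hnb
  have hr : 1 ≤ √((m : ℝ) * nb) := Real.one_le_sqrt.2 (by nlinarith)
  set θ := c / √((m : ℝ) * nb) with hθ
  have hθ0 : 0 < θ := by positivity
  let A' : ℕ → Finset Λ := fun j => if h : j < m then A (Fin.rev ⟨j, h⟩) else ∅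
  have hA' : ∀ j (h : j < m), A' j = A (Fin.rev ⟨j, h⟩) := fun j h => dif_pos h
  obtain ⟨χ, hχ, hb⟩ := H Λ (fun _ => Fin q) (Finset Λ) s.h id s.Ω s.E Δ A' m θ s₀ t
    ⟨h_supp s, h_herm s, gap_sys s, hΔ⟩
    ⟨fun i j hij hj => by
      rw [hA' j hj, hA' i (by omega)]; exact h1 _ _ (Fin.rev_le_rev.2 hij),
    fun X hX i j hij hj hx => by
      rw [hA' i (by omega)] at hx
      rw [hA' j hj]; exact h2 X hX _ _ (Fin.rev_lt_rev.2 hij) hx⟩ hθ0
    ((div_le_self hc0.le hr).trans hc1) (by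
      refine (sum_le_card_nsmul _ _ (32 * θ ^ 2 * (cT q R J * nb)) fun j hj => ?_).trans ?_
      · have h5 := sum_crosses_le hq s (A' j) zero_le_one
        simp only [one_mul] at h5
        gcongr
        refine h5.trans ?_
        gcongr
        rw [hA' j (mem_range.1 hj)]; exact h3 _
      · rw [le_div_iff₀ (by positivity)] at hc2
        rw [card_range, nsmul_eq_mul, hθ, div_pow, Real.sq_sqrt (by positivity)]
        have : (nb : ℝ) ≠ 0 := by linarith
        field_simp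
        linarith) hs ht fun j hj => by rw [hA' j hj]; exact (S_eq _ _).ge.trans (h4 _)
  set D := Real.exp (10 * s₀ + 10 * t + 4) with hD
  obtain ⟨F, f1, f2, -, f3⟩ := gs (d := fun _ => Fin q) h1 (univ.sigma fun k =>
    (univ.filter fun i => Real.exp (-t) < D * ev (rd (A k) χ) i).image (evec (rd (A k) χ)))
  have hP : ‖1 - ∑ x ∈ F, cyl x‖ ≤ 1 :=
    (IsStarProjection.one_sub ⟨f2.idem, sum_cyl_herm F⟩).norm_le _
  have hrk : ∀ p : Cyl (fun _ => Fin q) A, rk1 (A p.1) p.2.ofLp p.2.ofLp = cyl p :=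
    fun p => localOp_eq _ _
  refine ⟨F.card, fun α => (F.equivFin.symm α).1.1, fun α => (F.equivFin.symm α).1.2.ofLp, ?_,
    fun α => ?_, fun α β hne => ?_, ?_⟩
  · have h5 : (F.card : ℝ) ≤ ∑ _k : Fin m, D / Real.exp (-t) := by
      refine (Nat.cast_le.2 f1).trans ?_
      rw [card_sigma, Nat.cast_sum]
      refine sum_le_sum fun k _ => (Nat.cast_le.2 card_image_le).trans ?_
      rw [le_div_iff₀ (Real.exp_pos _)]
      exact card_big_le _ hχ (Real.exp_pos _).le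
    rw [sum_const, card_univ, Fintype.card_fin, nsmul_eq_mul, hD, ← Real.exp_sub] at h5
    refine h5.trans ?_
    gcongr
    linarith
  · rw [← EuclideanSpace.norm_sq_eq, f2.norm _ (F.equivFin.symm α).2, one_pow]
  · rw [hrk, hrk]
    exact f2.orth _ (F.equivFin.symm α).2 _ (F.equivFin.symm β).2
      fun h => hne (F.equivFin.symm.injective (Subtype.ext h))
  · simp only [hrk]
    rw [F.equivFin.symm.sum_comp fun p => cyl p.1, sum_coe_sort F cyl]
    have h5 := tel hP s.gap.1 m (e := θ * Real.exp (-t))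
      (B := fun j => fr (fun x => (1 + D * x) ^ (-θ)) (mg (A' j) (pj χ))) fun j hj => by
        rw [hA' j hj]
        refine cut_le hP (Real.exp_pos _).le (Real.exp_pos _).le hθ0.le fun i hi => ?_
        have := f3 ⟨_, evec (rd (A (Fin.rev ⟨j, hj⟩)) χ) i⟩
          (mem_sigma.2 ⟨mem_univ _, mem_image_of_mem _ (mem_filter.2 ⟨mem_univ _, hi⟩)⟩)
        rw [Matrix.sub_mul, Matrix.one_mul, sub_eq_zero]
        exact this.symm
    rw [ap_sub, ap_one, norm_sub_rev] at h5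
    refine h5.trans ((add_le_add_left hb _).trans ?_)
    have e1 : θ * m = c * √((m : ℝ) / nb) := by
      have h6 : 0 < √(m : ℝ) := by positivity
      rw [hθ, Real.sqrt_mul (by positivity), Real.sqrt_div (by positivity)]
      nth_rewrite 2 [← Real.mul_self_sqrt (Nat.cast_nonneg (α := ℝ) m)]
      field_simp
    have e2 : √((m : ℝ) / nb) ≤ 1 := Real.sqrt_le_one.2 ((div_le_one (by linarith)).2 hnb')
    set u := c * t * √((m : ℝ) / nb) with hu
    have e3 : 0 ≤ u := by positivity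
    have e4 : u ≤ t / 4 :=
      calc u ≤ 1 / 4 * t * 1 := by rw [hu]; gcongr
        _ = _ := by ring
    have e5 : θ * m ≤ u := by
      rw [e1, hu]; gcongr; exact le_mul_of_one_le_right hc0.le ht
    rw [show 5 / 2 * θ * m * t = 5 / 2 * u by rw [hu, mul_assoc _ θ, e1]; ring]
    calc _ ≤ Real.exp (-(5 / 2 * u)) + u * Real.exp (-(5 / 2 * u)) := by
          rw [← mul_assoc (m : ℝ), mul_comm _ θ]; gcongr; linarith
      _ = (u + 1) * Real.exp (-(5 / 2 * u)) := by ring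
      _ ≤ Real.exp u * Real.exp (-(5 / 2 * u)) := by gcongr; exact Real.add_one_le_exp u
      _ ≤ _ := by rw [← Real.exp_add]; gcongr; linarith

end Crest.Agent.N336.T
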