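import Crest.Agent.N336.T.Eng
import Crest.Agent.N336.T.Energy
import Crest.Agent.N336.T.PL
import Crest.Agent.N336.T.Patch

/-!
# Row 336: the patch lemma (helper87)
-/

namespace Crest.Agent.N336

theorem patch : PatchStmt := T.patch_of (T.tiltPL T.eng T.energy)

end Crest.Agent.N336
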