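import Crest.Agent.N336.T.Defs

/-!
# Row 336: scalar lemmas for item 3 (helper43)
-/

set_option autoImplicit false

namespace Crest.Agent.N336.T.Sub

open Real Set

/-- the gauge function -/
noncomputable def yy (e L δ x : ℝ) : ℝ := ((x + e) / (x + L)) ^ δ

/-- the barrier -/
noncomputable def FF (e L δ w : ℝ) : ℝ :=
  -(2 * δ * (L - e)) * log (1 - w ^ (1 / (2 * δ))) - e * log w

noncomputable def ps (e L x : ℝ) : ℝ := (x + L) * log (x + L) - (x + e) * log (x + e)

/-- the concave surrogate of the entropy -/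
noncomputable def ph (e L x : ℝ) : ℝ := ps e L x - ps e L 0

/-- the derivative of `ph` -/
noncomputable def dph (e L x : ℝ) : ℝ := log ((x + L) / (x + e))

variable {e L δ : ℝ}

lemma ph_zero (e L : ℝ) : ph e L 0 = 0 := sub_self _

lemma u_mem (hδ : 0 < δ) {w : ℝ} (hw : w ∈ Ioo (0 : ℝ) 1) :
    0 < w ^ (1 / (2 * δ)) ∧ w ^ (1 / (2 * δ)) < 1 :=
  ⟨rpow_pos_of_pos hw.1 _, rpow_lt_one hw.1.le hw.2 (by positivity)⟩

theorem barrier (he : 0 < e) (hL : e < L) (hδ : 0 < δ) : Barrier (-1) (Ioo 0 1) (FF e L δ) where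
  smooth := by
    intro w hw
    have h := u_mem hδ hw
    refine ContDiffAt.contDiffWithinAt ?_
    unfold FF
    refine (contDiffAt_const.mul ((contDiffAt_const.sub
      (contDiffAt_id.rpow_const_of_ne hw.1.ne')).log (by simp only [id]; linarith))).sub
      (contDiffAt_const.mul (contDiffAt_id.log hw.1.ne'))
  sub := by
    intro c hc M
    set M' := max M 1 with hM'
    have hM0 : 0 < M' := lt_of_lt_of_le one_pos (le_max_right _ _)
    have hMM : M ≤ M' := le_max_left _ _
    have hLe : 0 < L - e := by linarith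
    set κ := exp (-(M' / (c * (2 * δ * (L - e))))) with hκ
    have hκ0 : 0 < κ := exp_pos _
    have hκ1 : κ < 1 := by
      rw [hκ, exp_lt_one_iff, neg_lt_zero]; positivity
    refine ⟨exp (-(M' / (c * e))), ⟨exp_pos _, ?_⟩, (1 - κ) ^ (2 * δ),
      ⟨rpow_pos_of_pos (by linarith) _, rpow_lt_one (by linarith) (by linarith) (by positivity)⟩,
      fun w hw h => ?_⟩
    · rw [exp_lt_one_iff, neg_lt_zero]; positivity
    have hu := u_mem hδ hw
    have l1 : log w < 0 := log_neg hw.1 hw.2
    have l2 : log (1 - w ^ (1 / (2 * δ))) < 0 := log_neg (by linarith) (by linarith)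
    rw [min_eq_right (by linarith), add_zero, FF] at h
    have p1 : 0 < c * e := by positivity
    have p2 : 0 < c * (2 * δ * (L - e)) := by positivity
    constructor
    · rw [← exp_log hw.1, exp_le_exp, neg_le, le_div_iff₀ p1]
      nlinarith [mul_pos p2 (neg_pos.2 l2)]
    · have h1 : κ ≤ 1 - w ^ (1 / (2 * δ)) := by
        rw [← exp_log (show 0 < 1 - w ^ (1 / (2 * δ)) by linarith), hκ, exp_le_exp, neg_le,
          le_div_iff₀ p2]
        nlinarith [mul_pos p1 (neg_pos.2 l1)]
      have h2 : w = (w ^ (1 / (2 * δ))) ^ (2 * δ) := by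
        rw [← rpow_mul hw.1.le, one_div_mul_cancel (by positivity), rpow_one]
      rw [h2]
      exact rpow_le_rpow hu.1.le (by linarith) (by positivity)

theorem yy_deriv (hL : e < L) (hδ : 0 < δ) {w : ℝ} (hw : w ∈ Ioo (0 : ℝ) 1) :
    yy e L δ (-(w * deriv (FF e L δ) w) / (-1)) = sqrt w := by
  have hu := u_mem hδ hw
  have hw0 := hw.1
  set p := 1 / (2 * δ) with hp
  have h1 : HasDerivAt (fun w : ℝ => 1 - w ^ p) (-(p * w ^ (p - 1))) w :=
    (hasDerivAt_rpow_const (Or.inl hw.1.ne')).const_sub 1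
  have h2 : HasDerivAt (FF e L δ)
      (-(2 * δ * (L - e)) * (-(p * w ^ (p - 1)) / (1 - w ^ p)) - e * w⁻¹) w :=
    ((h1.log (by linarith)).const_mul _).sub ((hasDerivAt_log hw.1.ne').const_mul e)
  have h3 : 1 - w ^ p ≠ 0 := by linarith
  have h4 : L - e ≠ 0 := by linarith
  have hpd : 2 * δ * p = 1 := by rw [hp]; field_simp
  have h5 : -(w * deriv (FF e L δ) w) / (-1) = (L * w ^ p - e) / (1 - w ^ p) := by
    rw [h2.deriv, rpow_sub_one hw.1.ne']
    field_simp
    linear_combination (L - e) * w ^ p * hpd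
  rw [h5, yy]
  have h6 : ((L * w ^ p - e) / (1 - w ^ p) + e) / ((L * w ^ p - e) / (1 - w ^ p) + L) = w ^ p := by
    have a1 : (L * w ^ p - e) / (1 - w ^ p) + e = (L - e) * w ^ p / (1 - w ^ p) := by
      field_simp; ring
    have a2 : (L * w ^ p - e) / (1 - w ^ p) + L = (L - e) / (1 - w ^ p) := by
      field_simp; ring
    rw [a1, a2]; field_simp
  rw [h6, ← rpow_mul hw.1.le, sqrt_eq_rpow]
  congr 1
  linarith

lemma yy_pos (he : 0 < e) (hL : e < L) {x : ℝ} (hx : 0 ≤ x) : 0 < yy e L δ x :=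
  rpow_pos_of_pos (div_pos (by linarith) (by linarith)) _

lemma yy_lt_one (he : 0 < e) (hL : e < L) (hδ : 0 < δ) {x : ℝ} (hx : 0 ≤ x) : yy e L δ x < 1 :=
  rpow_lt_one (div_pos (by linarith) (by linarith)).le
    ((div_lt_one (by linarith)).2 (by linarith)) hδ

lemma log_yy (he : 0 < e) (hL : e < L) {x : ℝ} (hx : 0 ≤ x) :
    log (yy e L δ x) = δ * (log (x + e) - log (x + L)) := by
  rw [yy, log_rpow (div_pos (by linarith) (by linarith)), log_div (by linarith) (by linarith)]

theorem yy_lip (he : 0 < e) (hL : e < L) (hδ : 0 < δ) {a b : ℝ} (ha : 0 < a) (hb : 0 < b) :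
    |log (yy e L δ a) - log (yy e L δ b)| ≤ δ * |log a - log b| := by
  wlog h : b ≤ a generalizing a b
  · rw [abs_sub_comm, abs_sub_comm (log a)]; exact this hb ha (le_of_not_ge h)
  rw [log_yy he hL ha.le, log_yy he hL hb.le, ← mul_sub, abs_mul, abs_of_pos hδ]
  refine mul_le_mul_of_nonneg_left ?_ hδ.le
  have h1 : log (b + e) + log (a + L) ≤ log (a + e) + log (b + L) := by
    rw [← log_mul (by linarith) (by linarith), ← log_mul (by linarith) (by linarith)]
    exact log_le_log (by have : 0 < a + L := by linarith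
                         positivity) (by nlinarith)
  have h2 : log (a + e) + log b ≤ log (b + e) + log a := by
    rw [← log_mul (by linarith) (by linarith), ← log_mul (by linarith) (by linarith)]
    exact log_le_log (by positivity) (by nlinarith)
  have h3 : log (b + L) ≤ log (a + L) := log_le_log (by linarith) (by linarith)
  rw [abs_of_nonneg (by linarith), abs_of_nonneg (by linarith)]
  linarith

theorem FF_yy (he : 0 < e) (hL : e < L) (hδ : 0 < δ) {x : ℝ} (hx : 0 ≤ x) :
    FF e L δ (yy e L δ x ^ 2) - 2 * (log (yy e L δ x) * x) =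
      2 * δ * (ph e L x + (ps e L 0 - (L - e) * log (L - e))) := by
  have h0 : 0 < (x + e) / (x + L) := div_pos (by linarith) (by linarith)
  have h1 : (yy e L δ x ^ 2) ^ (1 / (2 * δ)) = (x + e) / (x + L) := by
    rw [yy, ← rpow_natCast, ← rpow_mul h0.le, ← rpow_mul h0.le]
    rw [show δ * ((2 : ℕ) : ℝ) * (1 / (2 * δ)) = 1 by push_cast; field_simp, rpow_one]
  have h2 : 1 - (x + e) / (x + L) = (L - e) / (x + L) := by
    have : x + L ≠ 0 := by linarith
    field_simp; ring
  rw [FF, h1, h2, log_pow, log_yy he hL hx, log_div (by linarith) (by linarith), ph, ps]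
  push_cast
  ring

lemma dph_eq (he : 0 < e) (hL : e < L) {x : ℝ} (hx : 0 ≤ x) :
    dph e L x = log (x + L) - log (x + e) := log_div (by linarith) (by linarith)

lemma dph_nonneg (he : 0 < e) (hL : e < L) {x : ℝ} (hx : 0 ≤ x) : 0 ≤ dph e L x :=
  log_nonneg ((one_le_div (by linarith)).2 (by linarith))

lemma dph_le (he : 0 < e) (hL : e < L) {x : ℝ} (hx : 0 ≤ x) : dph e L x ≤ dph e L 0 := by
  refine log_le_log (div_pos (by linarith) (by linarith)) ?_
  rw [div_le_div_iff₀ (by linarith) (by linarith)]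
  nlinarith

lemma mul_log_ge {a b : ℝ} (ha : 0 < a) (hb : 0 < b) : b - a ≤ b * (log b - log a) := by
  have h := log_le_sub_one_of_pos (div_pos ha hb)
  rw [log_div ha.ne' hb.ne'] at h
  have h2 : b * (a / b - 1) = a - b := by field_simp
  nlinarith

/-- tangent line -/
theorem ph_tangent (he : 0 < e) (hL : e < L) {a b : ℝ} (ha : 0 ≤ a) (hb : 0 ≤ b) :
    ph e L b ≤ ph e L a + dph e L a * (b - a) := by
  have a1 : 0 < a + e := by linarith
  have a2 : 0 < a + L := by linarith
  have b1 : 0 < b + e := by linarith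
  have b2 : 0 < b + L := by linarith
  have c : 0 < L - e := by linarith
  set r := (b + L) / (a + L) with hr
  have r0 : 0 < r := div_pos b2 a2
  have lr : log r = log (b + L) - log (a + L) := log_div b2.ne' a2.ne'
  have h1 := mul_log_ge (mul_pos a1 r0) b1
  have h2 := mul_log_ge (mul_pos c r0) c
  rw [log_mul a1.ne' r0.ne', lr] at h1
  rw [log_mul c.ne' r0.ne', lr] at h2
  have h3 : (a + L) * r = b + L := by rw [hr]; field_simp
  rw [dph_eq he hL ha]
  simp only [ph, ps]
  nlinarith

lemma mul_dph_le (he : 0 < e) (hL : e < L) {x : ℝ} (hx : 0 ≤ x) : x * dph e L x ≤ ph e L x := by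
  have := ph_tangent he hL hx le_rfl
  rw [ph_zero] at this
  linarith

lemma ph_le_add (he : 0 < e) (hL : e < L) {x : ℝ} (hx : 0 ≤ x) :
    ph e L x ≤ x * dph e L x + x := by
  have h1 := mul_log_ge (a := x + L) (b := L) (by linarith) (by linarith)
  have h2 : log e ≤ log (x + e) := log_le_log he (by linarith)
  rw [dph_eq he hL hx, ph, ps, ps, zero_add, zero_add]
  nlinarith

variable {S S' B t : ℝ}

lemma e_lt (hB : 0 < B) (S : ℝ) : exp (-S - B) < exp (-S + B) := exp_lt_exp.2 (by linarith)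

lemma dph_zero (S B : ℝ) : dph (exp (-S - B)) (exp (-S + B)) 0 = 2 * B := by
  rw [dph, zero_add, zero_add, ← exp_sub, log_exp]; ring

theorem ph_ge (hB : 0 < B) (ht : 0 < t) (S : ℝ) {x : ℝ} (hx : 0 ≤ x) :
    x * (B - t - log 2) - B / t ^ 2 * (x * (-log x - S) ^ 2) ≤
      ph (exp (-S - B)) (exp (-S + B)) x := by
  have he := exp_pos (-S - B)
  have hL := e_lt hB S
  have h1 := mul_dph_le he hL hx
  have h2 := dph_nonneg he hL hx
  have l2 : 0 < log 2 := log_pos one_lt_two
  have h3 : 0 ≤ B / t ^ 2 * (x * (-log x - S) ^ 2) := by positivity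
  rcases le_total x (exp (-S + t)) with h | h
  · have h4 : B - t - log 2 ≤ dph (exp (-S - B)) (exp (-S + B)) x := by
      have a1 : log (exp (-S + B)) ≤ log (x + exp (-S + B)) :=
        log_le_log (exp_pos _) (by linarith)
      have a2 : log (x + exp (-S - B)) ≤ log (2 * exp (-S + t)) :=
        log_le_log (by linarith) (by linarith [exp_le_exp.2 (show -S - B ≤ -S + t by linarith)])
      rw [log_mul two_ne_zero (exp_pos _).ne', log_exp] at a2
      rw [log_exp] at a1
      rw [dph_eq he hL hx]; linarith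
    nlinarith
  · have h4 : -S + t ≤ log x := by
      rw [← log_exp (-S + t)]; exact log_le_log (exp_pos _) h
    have h5 : t ^ 2 ≤ (-log x - S) ^ 2 := by nlinarith
    have h6 : B * x ≤ B / t ^ 2 * (x * (-log x - S) ^ 2) := by
      calc B * x = B / t ^ 2 * (x * t ^ 2) := by field_simp
        _ ≤ _ := by gcongr
    nlinarith [mul_nonneg hx h2, mul_nonneg hx ht.le, mul_nonneg hx l2.le]

theorem ph_le (hB : 0 < B) (ht : 0 < t) (hS : S - S' ≤ B) {x : ℝ} (hx : 0 ≤ x) :
    ph (exp (-S - B)) (exp (-S + B)) x ≤ x * (1 + log 2 + B + t - (S - S')) +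
      2 * B / t ^ 2 * (x * (-log x - S') ^ 2) := by
  have he := exp_pos (-S - B)
  have hL := e_lt hB S
  have l2 : 0 < log 2 := log_pos one_lt_two
  have h3 : 0 ≤ 2 * B / t ^ 2 * (x * (-log x - S') ^ 2) := by positivity
  rcases hx.eq_or_lt with rfl | hx0
  · simp [ph_zero]
  rcases le_total (exp (-S' - t)) x with h | h
  · have h1 := ph_le_add he hL hx
    have h4 : dph (exp (-S - B)) (exp (-S + B)) x ≤ log 2 + B + t - (S - S') := by
      have a1 : log x ≤ log (x + exp (-S - B)) := log_le_log hx0 (by linarith)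
      have b1 : 1 ≤ exp (B + t - (S - S')) := one_le_exp (by linarith)
      have b2 : exp (-S + B) = exp (-S' - t) * exp (B + t - (S - S')) := by
        rw [← exp_add]; congr 1; ring
      have a2 : log (x + exp (-S + B)) ≤ log (2 * (x * exp (B + t - (S - S')))) :=
        log_le_log (by linarith) (by rw [b2]; nlinarith)
      rw [log_mul two_ne_zero (by positivity), log_mul hx0.ne' (exp_pos _).ne', log_exp] at a2
      rw [dph_eq he hL hx]; linarith
    nlinarith
  · have h1 := ph_tangent he hL le_rfl hx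
    rw [ph_zero, dph_zero] at h1
    have h4 : log x ≤ -S' - t := by
      rw [← log_exp (-S' - t)]; exact log_le_log hx0 h
    have h5 : t ^ 2 ≤ (-log x - S') ^ 2 := by nlinarith
    have h6 : 2 * B * x ≤ 2 * B / t ^ 2 * (x * (-log x - S') ^ 2) := by
      calc 2 * B * x = 2 * B / t ^ 2 * (x * t ^ 2) := by field_simp
        _ ≤ _ := by gcongr
    have h7 : 0 ≤ x * (1 + log 2 + B + t - (S - S')) := mul_nonneg hx (by linarith)
    linarith

end Crest.Agent.N336.T.Sub
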