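import Crest.Agent.N336.T.Seg
import Crest.Agent.N336.T.SubS

/-!
# Row 336: the abstract form of item 3 (helper43)

* `tiltSub : EngStmt → EnergyStmt → TiltSubStmt`
-/

set_option autoImplicit false
set_option linter.unusedSectionVars false

open Matrix Finset
open scoped ComplexOrder MatrixOrder Matrix.Norms.L2Operator InnerProductSpace Topology

namespace Crest.Agent.N336.T

open Crest.Agent.N336.Q Crest.Agent.N336.A
open Crest.Agent.N336.Eng (cpw lg qf SB)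

attribute [local irreducible] ev eU

namespace Sub

/-- the derivative form of the three lines theorem -/
theorem re_deriv_le {f : ℂ → ℂ} (hf : SB f) (h0 : f 0 = 1) {b : ℝ}
    (hl : ∀ w : ℂ, w.re = 0 → ‖f w‖ ≤ 1) (hr : ∀ w : ℂ, w.re = 1 → ‖f w‖ ≤ Real.exp b) {f' : ℂ}
    (hd : HasDerivAt f f' 0) : f'.re ≤ b := by
  have h1 : HasDerivAt (fun x : ℝ => (f x).re) f'.re 0 :=
    HasDerivAt.real_of_complex (z := 0) (by simpa using hd)
  have h2 : HasDerivAt (fun x : ℝ => Real.exp (x * b)) b 0 := by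
    simpa using ((hasDerivAt_id (0 : ℝ)).mul_const b).exp
  have h3 := (h2.sub h1).tendsto_slope_zero_right
  refine sub_nonneg.1 (ge_of_tendsto h3 ?_)
  filter_upwards [Ioo_mem_nhdsGT (zero_lt_one' ℝ)] with x hx
  have h4 := Eng.three_exp hf (m₀ := 0) (m₁ := b) zero_lt_one (z := x) (by simpa using hx.1.le)
    (by simpa using hx.2.le) (by simpa using hl) hr
  have h5 := Complex.re_le_norm (f x)
  simp only [Complex.ofReal_re, zero_mul, sub_zero, div_one, zero_add] at h4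
  simp only [zero_add, Pi.sub_apply, zero_mul, Real.exp_zero, Complex.ofReal_zero, h0,
    Complex.one_re, sub_self, sub_zero, smul_eq_mul]
  rw [mul_comm b] at h4
  exact mul_nonneg (inv_pos.2 hx.1).le (by linarith)

section matrices

variable {n : Type} [Fintype n] [DecidableEq n]

lemma exists_ev_fr (g : ℝ → ℝ) (M : Matrix n n ℂ) (i : n) : ∃ j, ev (fr g M) i = g (ev M j) := by
  classical
  by_contra hc
  have h1 := re_trace_fr (fun x => if ∃ j, x = g (ev M j) then 0 else 1) (fr g M)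
  rw [fr, fc_fr, fc_congr (g := fun _ => 0) fun j => by rw [if_pos ⟨j, rfl⟩]; simp, fc_zero,
    trace_zero, Complex.zero_re] at h1
  have h2 := Finset.single_le_sum (f := fun i => if ∃ j, ev (fr g M) i = g (ev M j) then (0 : ℝ)
    else 1) (fun i _ => by split_ifs <;> norm_num) (mem_univ i)
  rw [← h1, if_neg hc] at h2
  norm_num at h2

/-- Klein's inequality -/
theorem klein {f f' : ℝ → ℝ} (h : ∀ a b, 0 ≤ a → 0 ≤ b → f b ≤ f a + f' a * (b - a))
    {a b : Matrix n n ℂ} (ha : a.PosSemidef) (hb : b.PosSemidef) :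
    tF f b ≤ tF f a + (trace (fr f' a * b)).re - (trace (fr f' a * a)).re := by
  have h1 := re_trace_fr_mul_fr f' (fun x => x) a b
  have h2 : (trace (fr f' a * a)).re = ∑ i, f' (ev a i) * ev a i := by
    conv_lhs => arg 1; arg 1; arg 2; rw [← fc_id ha.1]
    rw [fc_mul, trace_fc]; simp
  rw [fr_id hb.1] at h1
  rw [h1, h2, tF, tF, sum_ev_right f a b, sum_ev_left f a b,
    sum_ev_left (fun x => f' x * x) a b, ← Finset.sum_add_distrib, ← Finset.sum_sub_distrib]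
  refine Finset.sum_le_sum fun i _ => ?_
  rw [← Finset.sum_add_distrib, ← Finset.sum_sub_distrib]
  refine Finset.sum_le_sum fun j _ => ?_
  have := mul_le_mul_of_nonneg_left (h _ _ (ev_nonneg ha i) (ev_nonneg hb j)) (ov_nonneg a b i j)
  linarith

lemma dseg_congr {Y Y' C C' : ℕ → Matrix n n ℂ} {m : ℕ} (h : ∀ j < m, Y j = Y' j)
    (h' : ∀ j < m, C j = C' j) : dseg Y C m = dseg Y' C' m := by
  refine Finset.sum_congr rfl fun j hj => ?_
  rw [mem_range] at hj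
  rw [h' j hj, seg_congr (Y' := Y') fun i _ hi => h i (by omega),
    seg_congr (Y := Y) (Y' := Y') (k := 0) fun i _ hi => h i (by omega)]

lemma cpw_sq {W : Matrix n n ℂ} (hW : W.PosDef) {z : ℂ} (hz : z.re = 1) :
    (cpw W z)ᴴ * cpw W z = Wᴴ * W := by
  rw [Eng.cpw_conjTranspose, Eng.cpw_mul_cpw, add_comm, Complex.add_conj, hz, hW.1.eq]
  conv_rhs => rw [← Eng.cpw_one hW, Eng.cpw_mul_cpw]
  norm_num

lemma fc_proj_mul {O σ : Matrix n n ℂ} (hO : O.IsHermitian) (h2 : O * O = O) (hσ : σ.IsHermitian)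
    (hc : Commute O σ) (f : ℝ → ℂ) : fc f (O * σ) = O * fc f σ + f 0 • (1 - O) := by
  have hH := Eng.isHermitian_mul hO hσ hc
  have h3 := fc_intertwine f hH hσ (V := O) (by rw [Matrix.mul_assoc, ← hc.eq, ← Matrix.mul_assoc, h2])
  have h4 := Eng.fc_mul_of_eig f hH (V := 1 - O) (c := 0) (by
    rw [hc.eq, Matrix.mul_assoc, Matrix.mul_sub, Matrix.mul_one, h2, sub_self]; simp)
  rw [← h3, ← h4, ← Matrix.mul_add, add_sub_cancel, Matrix.mul_one]

end matrices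

section sites

variable {ι : Type} [Fintype ι] [DecidableEq ι]
  {d : ι → Type} [∀ x, Fintype (d x)] [∀ x, DecidableEq (d x)] [∀ x, Nonempty (d x)]

/-- `tr f(ρ_X)` -/
noncomputable def Ph (f : ℝ → ℝ) (X : Finset ι) (ψ : Q.Vec (Cfg d)) : ℝ :=
  ∑ i, f (ev (red (sb X) (pj ψ)) i)

lemma klein_mg {f f' : ℝ → ℝ} (h : ∀ a b, 0 ≤ a → 0 ≤ b → f b ≤ f a + f' a * (b - a))
    {X : Finset ι} {a : Q.Op d} (ha : a.PosSemidef) (hX : Supp X a) (ψ : Q.Vec (Cfg d)) :
    Ph f X ψ ≤ tX X f a + qf ψ (fr f' a) - (dim d Xᶜ : ℝ)⁻¹ * (trace (fr f' a * a)).re := by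
  have h1 := mul_le_mul_of_nonneg_left (klein h ha (mg_posSemidef X (pj_posSemidef ψ)))
    (inv_pos.2 (dim_pos_real (d := d) Xᶜ)).le
  rw [Ph, ← tX_mg X f (pj_isHermitian ψ), tX, tX, Eng.qf_eq_trace_mg (hX.fc _ ha.1),
    div_eq_inv_mul]
  linarith

lemma trace_spP_mul_supp {X D : Finset ι} (hD : D ⊆ X) (w : Q.Op d) (l) {M : Q.Op d}
    (hM : Supp (X \ D) M) : (dim d Xᶜ : ℝ)⁻¹ * (trace (spP D w l * M)).re =
      (dim d (X \ D)ᶜ : ℝ)⁻¹ * (trace M).re := by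
  have h1 := trace_mul_disjoint (supp_spP D w l) hM disjoint_sdiff
  have h2 := dim_compl_mul (d := d) (disjoint_sdiff : Disjoint D (X \ D))
  rw [union_sdiff_of_subset hD] at h2
  rw [trace_spP] at h1
  have h3 := congrArg Complex.re h1
  simp only [Complex.mul_re, Complex.natCast_re, Complex.natCast_im, zero_mul, sub_zero] at h3
  have h4 : (dim d Dᶜ : ℝ) * dim d (X \ D)ᶜ = dim d univ * dim d Xᶜ := by exact_mod_cast h2
  have p1 := dim_pos_real (d := d) Xᶜ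
  have p2 := dim_pos_real (d := d) (X \ D)ᶜ
  have p3 := dim_pos_real (d := d) univ
  field_simp
  refine mul_left_cancel₀ p3.ne' ?_
  linear_combination (dim d (X \ D)ᶜ : ℝ) * h3 + (trace M).re * h4

/-- the state conditioned on an eigenvalue of the marginal on `D` -/
theorem ph_cond {f f' : ℝ → ℝ} (h : ∀ a b, 0 ≤ a → 0 ≤ b → f b ≤ f a + f' a * (b - a))
    (f0 : f 0 = 0) {X D : Finset ι} (hD : D ⊆ X) (Ω : Q.Vec (Cfg d)) (l) {ψ : Q.Vec (Cfg d)}
    (hψ : ap (spP D (pj Ω) l) ψ = ψ) :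
    Ph f X ψ ≤ Ph f (X \ D) Ω + qf ψ (fr f' (mg (X \ D) (pj Ω))) -
      qf Ω (fr f' (mg (X \ D) (pj Ω))) := by
  set O := spP D (pj Ω) l with hO
  set σ := mg (X \ D) (pj Ω) with hσ
  have pO : O.PosSemidef := spP_posSemidef _ _ _
  have pσ : σ.PosSemidef := mg_posSemidef _ (pj_posSemidef Ω)
  have sσ : Supp (X \ D) σ := supp_mg _ _
  have hOO : O * O = O := by rw [hO, spP_mul, if_pos rfl]
  have hc : ∀ {M : Q.Op d}, Supp (X \ D) M → Commute O M := fun hM =>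
    (supp_spP _ _ _).commute hM disjoint_sdiff
  have h1 := klein_mg h (Eng.posSemidef_mul pO pσ (hc sσ))
    (((supp_spP _ _ _).mono hD).mul (sσ.mono sdiff_subset)) ψ
  have e := fc_proj_mul pO.1 hOO pσ.1 (hc sσ)
  have e1 : tX X f (O * σ) = Ph f (X \ D) Ω := by
    rw [tX, tF_eq, fr, e, f0, Complex.ofReal_zero, zero_smul, add_zero,
      trace_spP_mul_supp hD _ _ (sσ.fc _ pσ.1), Ph, ← tX_mg _ f (pj_isHermitian Ω), tX, tF_eq]
  have e2 : qf ψ (fr f' (O * σ)) = qf ψ (fr f' σ) := by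
    rw [fr, e, qf, ap_add, ap_smul, ap_sub, ap_one, hψ, sub_self, smul_zero, add_zero,
      (hc (sσ.fc _ pσ.1)).eq, ap_mul, hψ]
  have e3 : fr f' (O * σ) * (O * σ) = O * (fr f' σ * σ) := by
    rw [fr, e, Matrix.add_mul, Matrix.smul_mul, Matrix.sub_mul, Matrix.one_mul,
      ← Matrix.mul_assoc O O, hOO, sub_self, smul_zero, add_zero, (hc (sσ.fc _ pσ.1)).eq,
      Matrix.mul_assoc, ← Matrix.mul_assoc O O, hOO, ← Matrix.mul_assoc,
      ← (hc (sσ.fc _ pσ.1)).eq, Matrix.mul_assoc]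
  rw [e1, e2, e3, trace_spP_mul_supp hD _ _ ((sσ.fc _ pσ.1).mul sσ)] at h1
  rw [Eng.qf_eq_trace_mg (sσ.fc _ pσ.1) Ω, div_eq_inv_mul]
  exact h1

variable {I : Set ℝ} {F y : ℕ → ℝ → ℝ} {A : ℕ → Finset ι} {m : ℕ} {Ω χ : Q.Vec (Cfg d)}
  {Y : ℕ → Q.Op d} {N : ℝ}

lemma norm_seg_cpw_le (h : Stat (-1) I F A m Ω y Y χ N) {W : ℕ → Q.Op d} (hW : Adm I A m W)
    (hp : ∀ j < m, (W j).PosDef) {z : ℂ} (hz : z.re = 1) :
    ‖ap (seg (fun j => cpw (W j) z) 0 m) Ω‖ ≤
      Real.exp ((∑ j ∈ range m, tX (A j) (F j) ((W j)ᴴ * W j) - LL (-1) F A m Ω Y) / 2) := by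
  have h1 := h.min (fun j => cpw (W j) z) fun j hj =>
    ⟨Eng.supp_cpw (hW j hj).1 (hp j hj).1 z, by rw [cpw_sq (hp j hj) hz]; exact (hW j hj).2⟩
  conv_rhs at h1 => rw [LL, Finset.sum_congr rfl fun j hj => by
    rw [cpw_sq (hp j (mem_range.1 hj)) hz]]
  rcases (norm_nonneg (ap (seg (fun j => cpw (W j) z) 0 m) Ω)).eq_or_lt with h0 | h0
  · rw [← h0]; positivity
  · rw [← Real.exp_log h0, Real.exp_le_exp]
    rw [Real.log_pow] at h1
    push_cast at h1
    linarith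

lemma norm_seg_cpw_im (W : ℕ → Q.Op d) (m : ℕ) {z : ℂ} (hz : z.re = 0) {u v : Q.Vec (Cfg d)}
    (hu : ‖u‖ = 1) (hv : ‖v‖ = 1) : ‖⟪u, ap (seg (fun j => cpw (W j) z) 0 m) v⟫_ℂ‖ ≤ 1 := by
  have := norm_inner_ap_le (seg (fun j => cpw (W j) z) 0 m) u v
  rw [hu, hv, mul_one, mul_one] at this
  exact this.trans (norm_seg_le fun j _ _ => Eng.norm_cpw_im_le _ hz)

theorem up (h : Stat (-1) I F A m Ω y Y χ N) (hΩ : ‖Ω‖ = 1) (hp : ∀ j < m, (Y j).PosDef) :
    ∑ j ∈ range m, tX (A j) (F j) ((Y j)ᴴ * Y j) - 2 * ∑ j ∈ range m, qf χ (lg (Y j)) ≤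
      LL (-1) F A m Ω Y := by
  have hN := h.pos
  have hN' : (N : ℂ) ≠ 0 := by exact_mod_cast hN.ne'
  have hL : LL (-1) F A m Ω Y =
      ∑ j ∈ range m, tX (A j) (F j) ((Y j)ᴴ * Y j) - 2 * Real.log N := by
    rw [LL, h.norm_seg, Real.log_pow]; push_cast; ring
  have hd : HasDerivAt (fun w : ℂ => seg (fun j => cpw (Y j) (1 - w)) 0 m)
      (dseg Y (fun j => Y j * -lg (Y j)) m) 0 := by
    have := hasDerivAt_seg (F := fun j (w : ℂ) => cpw (Y j) (1 - w))
      (C := fun j => (-1 : ℂ) • (lg (Y j) * cpw (Y j) (1 - 0))) (z := 0) (m := m) fun j _ =>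
        (Eng.hasDerivAt_cpw (Y j) (1 - 0)).scomp (0 : ℂ) ((hasDerivAt_id (0 : ℂ)).const_sub 1)
    rwa [dseg_congr (Y' := Y) (C' := fun j => Y j * -lg (Y j))
      (fun j hj => by rw [sub_zero, Eng.cpw_one (hp j hj)]) fun j hj => by
        rw [sub_zero, Eng.cpw_one (hp j hj), neg_one_smul, Matrix.mul_neg,
          (commute_fc _ (hp j hj).1 (Commute.refl _)).eq]] at this
  have hd' := (Eng.HasDerivAt.inner_ap hd χ Ω).const_mul (N : ℂ)⁻¹
  rw [h.inner_dseg fun j hj => (Eng.supp_lg (h.adm j hj).1 (hp j hj).1).neg,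
    inv_mul_cancel_left₀ hN'] at hd'
  have hn : ‖(N : ℂ)⁻¹‖ = N⁻¹ := by
    rw [norm_inv, Complex.norm_real, Real.norm_eq_abs, abs_of_pos hN]
  have key := re_deriv_le (b := -Real.log N) ((((sb_seg fun j _ _ =>
    SB.cpw_of (Y j) (-1) 1 fun z => by push_cast; ring).ap_const Ω).inner χ).const_mul _) ?_ ?_ ?_
    hd'
  · simp only [Complex.re_sum, ap_neg, inner_neg_right, Complex.neg_re,
      Finset.sum_neg_distrib] at key
    rw [hL]; linarith
  · rw [seg_congr (Y' := Y) fun j _ hj => by rw [sub_zero, Eng.cpw_one (hp j (by omega))], h.chi,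
      inner_smul_right, inner_self_eq_norm_sq_to_K, h.norm]
    simp [hN']
  · intro w hw
    have h1 := norm_seg_cpw_le h h.adm hp (z := 1 - w) (by simp [hw])
    rw [hL, sub_sub_cancel, mul_div_cancel_left₀ _ two_ne_zero, Real.exp_log hN] at h1
    have h2 := norm_inner_le_norm (𝕜 := ℂ) χ (ap (seg (fun j => cpw (Y j) (1 - w)) 0 m) Ω)
    rw [h.norm, one_mul] at h2
    rw [norm_mul, hn, inv_mul_le_iff₀ hN, mul_one]
    exact h2.trans h1
  · intro w hw
    rw [norm_mul, hn, Real.exp_neg, Real.exp_log hN]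
    exact mul_le_of_le_one_right (inv_pos.2 hN).le
      (norm_seg_cpw_im Y m (by simp [hw]) h.norm hΩ)

theorem low (h : Stat (-1) I F A m Ω y Y χ N) {W : ℕ → Q.Op d} (hW : Adm I A m W)
    (hp : ∀ j < m, (W j).PosDef) {O : Q.Op d} (hO : O.IsHermitian)
    (hc : ∀ j < m, Commute (W j) O) {f : Q.Vec (Cfg d)} (hf : ‖f‖ = 1) {a : ℝ} (ha : 0 < a)
    (h1 : ap O Ω = (a : ℂ) • f) (h2 : ap O f = f) :
    LL (-1) F A m Ω Y ≤ ∑ j ∈ range m, tX (A j) (F j) ((W j)ᴴ * W j) -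
      2 * ∑ j ∈ range m, qf f (lg (W j)) - 2 * Real.log a := by
  have hd := hasDerivAt_seg (F := fun j (w : ℂ) => cpw (W j) w) (C := fun j => lg (W j)) (z := 0)
    (m := m) fun j _ => Eng.hasDerivAt_cpw_zero (W j)
  have hd' := Eng.HasDerivAt.inner_ap hd f f
  simp only [Eng.cpw_zero, dseg, seg_one, Matrix.mul_one, Matrix.one_mul, ap_sum,
    inner_sum] at hd'
  have key := re_deriv_le
    (b := (∑ j ∈ range m, tX (A j) (F j) ((W j)ᴴ * W j) - LL (-1) F A m Ω Y) / 2 - Real.log a)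
    (((sb_seg fun j _ _ => SB.cpw (W j)).ap_const f).inner f) ?_
    (fun w hw => norm_seg_cpw_im W m hw hf hf) ?_ hd'
  · rw [Complex.re_sum] at key
    linarith
  · simp only [Eng.cpw_zero, seg_one, ap_one, inner_self_eq_norm_sq_to_K, hf]
    simp
  · intro w hw
    have h3 := norm_seg_cpw_le h hW hp hw
    have h4 : Commute O (seg (fun j => cpw (W j) w) 0 m) := commute_seg fun j _ hj =>
      (Eng.commute_cpw_left (hp j (by omega)).1 (hc j (by omega)) w).symm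
    have h5 : (a : ℂ) * ⟪f, ap (seg (fun j => cpw (W j) w) 0 m) f⟫_ℂ =
        ⟪f, ap (seg (fun j => cpw (W j) w) 0 m) Ω⟫_ℂ := by
      rw [← inner_smul_right, ← map_smul, ← h1, ← ap_mul, ← h4.eq, ap_mul, inner_ap_right, hO.eq,
        h2]
    have h6 := norm_inner_le_norm (𝕜 := ℂ) f (ap (seg (fun j => cpw (W j) w) 0 m) Ω)
    rw [← h5, hf, one_mul, norm_mul, Complex.norm_real, Real.norm_eq_abs, abs_of_pos ha] at h6
    rw [Real.exp_sub, Real.exp_log ha, le_div_iff₀ ha, mul_comm]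
    exact h6.trans h3

lemma id_eq {e L δ : ℝ} (he : 0 < e) (hL : e < L) (hδ : 0 < δ) (X : Finset ι)
    (ψ : Q.Vec (Cfg d)) :
    tX X (FF e L δ) ((fr (yy e L δ) (mg X (pj ψ)))ᴴ * fr (yy e L δ) (mg X (pj ψ))) -
      2 * qf ψ (lg (fr (yy e L δ) (mg X (pj ψ)))) = 2 * δ * Ph (ph e L) X ψ +
        2 * δ * (dim d X * (ps e L 0 - (L - e) * Real.log (L - e))) := by
  rw [fr_sq, tX_fr_mg _ _ _ (pj_isHermitian ψ), lg, fr, fc_fr,
    Eng.qf_fr_mg (fun x => Real.log (yy e L δ x)), Finset.mul_sum, ← Finset.sum_sub_distrib,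
    Finset.sum_congr rfl fun i _ => FF_yy he hL hδ
      (ev_nonneg (red_posSemidef _ (pj_posSemidef ψ)) i), ← Finset.mul_sum, Finset.sum_add_distrib,
    Finset.sum_const, Finset.card_univ, card_sub_sb, nsmul_eq_mul, Ph, mul_add]

/-- comparison of the tilted state with a conditioned state -/
theorem cmp {e L δ : ℕ → ℝ} (hp : ∀ j < m, 0 < e j ∧ e j < L j ∧ 0 < δ j)
    (h : Stat (-1) (Set.Ioo 0 1) (fun j => FF (e j) (L j) (δ j)) A m Ω
      (fun j => yy (e j) (L j) (δ j)) Y χ N) (hΩ : ‖Ω‖ = 1) {O : Q.Op d} (hO : O.IsHermitian)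
    (hs : ∀ j < m, Supp (A j) O) {f : Q.Vec (Cfg d)} (hf : ‖f‖ = 1) {a : ℝ} (ha : 0 < a)
    (h1 : ap O Ω = (a : ℂ) • f) (h2 : ap O f = f) :
    ∑ j ∈ range m, δ j * Ph (ph (e j) (L j)) (A j) χ ≤
      ∑ j ∈ range m, δ j * Ph (ph (e j) (L j)) (A j) f - Real.log a := by
  have pd : ∀ ψ : Q.Vec (Cfg d), ∀ j < m,
      (fr (yy (e j) (L j) (δ j)) (mg (A j) (pj ψ))).PosDef := fun ψ j hj =>
    Eng.fr_posDef fun i => yy_pos (hp j hj).1 (hp j hj).2.1
      (ev_nonneg (mg_posSemidef _ (pj_posSemidef ψ)) i)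
  have a1 := up h hΩ fun j hj => by rw [h.eq j hj]; exact pd χ j hj
  have a2 := low h (W := fun j => fr (yy (e j) (L j) (δ j)) (mg (A j) (pj f))) (fun j hj =>
    ⟨(supp_mg _ _).fc _ (mg_isHermitian _ (pj_isHermitian f)), fun i => by
      obtain ⟨b1, b2, b3⟩ := hp j hj
      rw [fr_sq]
      obtain ⟨k, hk⟩ := exists_ev_fr (fun x => yy (e j) (L j) (δ j) x ^ 2) (mg (A j) (pj f)) i
      have h0 := ev_nonneg (mg_posSemidef (A j) (pj_posSemidef f)) k
      have c1 := yy_pos (δ := δ j) b1 b2 h0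
      rw [hk]
      exact ⟨by positivity, pow_lt_one₀ c1.le (yy_lt_one b1 b2 b3 h0) two_ne_zero⟩⟩) (pd f) hO
    (fun j hj => commute_fc _ (mg_isHermitian _ (pj_isHermitian f)) (by
      unfold Commute SemiconjBy
      rw [← (hs j hj).mg_mul, ← (hs j hj).mg_mul', mul_kb, kb_mul, hO.eq, h2])) hf ha h1 h2
  have a3 := a1.trans a2
  rw [Finset.mul_sum, Finset.mul_sum, ← Finset.sum_sub_distrib, ← Finset.sum_sub_distrib,
    Finset.sum_congr rfl fun j hj => by
      rw [h.eq j (mem_range.1 hj), id_eq (hp j (mem_range.1 hj)).1 (hp j (mem_range.1 hj)).2.1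
        (hp j (mem_range.1 hj)).2.2],
    Finset.sum_congr rfl fun j hj => id_eq (hp j (mem_range.1 hj)).1 (hp j (mem_range.1 hj)).2.1
        (hp j (mem_range.1 hj)).2.2 (A j) f] at a3
  simp only [Finset.sum_add_distrib, mul_assoc, ← Finset.mul_sum] at a3
  linarith

/-- averaging over the spectral projections of the marginal on `D` -/
theorem avg_le {e L δ : ℕ → ℝ} (hp : ∀ j < m, 0 < e j ∧ e j < L j ∧ 0 < δ j)
    (h : Stat (-1) (Set.Ioo 0 1) (fun j => FF (e j) (L j) (δ j)) A m Ω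
      (fun j => yy (e j) (L j) (δ j)) Y χ N) (hΩ : ‖Ω‖ = 1) {D : Finset ι}
    (hD : ∀ j < m, D ⊆ A j) :
    ∑ j ∈ range m, δ j * Ph (ph (e j) (L j)) (A j) χ ≤
      ∑ j ∈ range m, δ j * Ph (ph (e j) (L j)) (A j \ D) Ω + SX D (pj Ω) / 2 := by
  set T : ℕ → Q.Op d := fun j => fr (dph (e j) (L j)) (mg (A j \ D) (pj Ω)) with hT
  set p := ev (red (sb D) (pj Ω)) with hp'
  have hOO : ∀ l, spP D (pj Ω) l * spP D (pj Ω) l = spP D (pj Ω) l := fun l => by
    rw [spP_mul, if_pos rfl]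
  have hH : ∀ l, (spP D (pj Ω) l).IsHermitian := fun l => (spP_posSemidef _ _ _).1
  have hn : ∀ l, ‖ap (spP D (pj Ω) l) Ω‖ ^ 2 = p l := fun l => by
    rw [norm_ap_sq, (hH l).eq, hOO, ← trace_mul_kb, trace_spP_mul _ (pj_isHermitian Ω),
      Complex.ofReal_re]
  have hs : ∑ l, p l = 1 := ((dens_pj hΩ).red _).sum_ev
  have hq : ∀ j, ∑ l, qf (ap (spP D (pj Ω) l) Ω) (T j) = qf Ω (T j) := fun j => by
    have hc : ∀ l, Commute (spP D (pj Ω) l) (T j) := fun l => (supp_spP _ _ _).commute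
      ((supp_mg _ _).fc _ (mg_isHermitian _ (pj_isHermitian Ω))) disjoint_sdiff
    have : ∀ l, qf (ap (spP D (pj Ω) l) Ω) (T j) = qf Ω (T j * spP D (pj Ω) l) := fun l => by
      rw [qf, inner_ap_left, (hH l).eq, ← ap_mul, ← ap_mul, (hc l).eq, Matrix.mul_assoc, hOO]
    simp only [this, qf]
    rw [← Complex.re_sum, ← inner_sum, ← ap_sum, ← Matrix.mul_sum, sum_spP, Matrix.mul_one]
  have key : ∀ l, p l * ∑ j ∈ range m, δ j * Ph (ph (e j) (L j)) (A j) χ ≤
      p l * ∑ j ∈ range m, δ j * (Ph (ph (e j) (L j)) (A j \ D) Ω - qf Ω (T j)) +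
        ∑ j ∈ range m, δ j * qf (ap (spP D (pj Ω) l) Ω) (T j) + Real.negMulLog (p l) / 2 := by
    intro l
    set v := ap (spP D (pj Ω) l) Ω with hv
    rcases (norm_nonneg v).eq_or_lt with h0 | h0
    · have : p l = 0 := by rw [← hn l, ← hv, ← h0]; simp
      simp [this, norm_eq_zero.1 h0.symm, qf]
    have h0' : (‖v‖ : ℂ) ≠ 0 := by exact_mod_cast h0.ne'
    set f := (‖v‖ : ℂ)⁻¹ • v with hf
    have f1 : v = (‖v‖ : ℂ) • f := by rw [hf, smul_smul, mul_inv_cancel₀ h0', one_smul]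
    have f2 : ‖f‖ = 1 := by rw [hf, norm_smul]; simp [h0.ne']
    have f3 : ap (spP D (pj Ω) l) f = f := by rw [hf, map_smul, hv, ← ap_mul, hOO]
    have c1 := cmp hp h hΩ (hH l) (fun j hj => (supp_spP _ _ _).mono (hD j hj)) f2 h0 f1 f3
    have c2 : ∑ j ∈ range m, δ j * Ph (ph (e j) (L j)) (A j) f ≤
        ∑ j ∈ range m, δ j * (Ph (ph (e j) (L j)) (A j \ D) Ω - qf Ω (T j)) +
          ∑ j ∈ range m, δ j * qf f (T j) := by
      rw [← Finset.sum_add_distrib]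
      refine Finset.sum_le_sum fun j hj => ?_
      obtain ⟨b1, b2, b3⟩ := hp j (mem_range.1 hj)
      have := ph_cond (f' := dph (e j) (L j)) (fun a b => ph_tangent b1 b2) (ph_zero _ _)
        (hD j (mem_range.1 hj)) Ω l f3
      rw [← mul_add]
      exact mul_le_mul_of_nonneg_left (by simp only [hT]; linarith) b3.le
    have c3 : ∑ j ∈ range m, δ j * qf v (T j) = p l * ∑ j ∈ range m, δ j * qf f (T j) := by
      rw [Finset.mul_sum]
      refine Finset.sum_congr rfl fun j _ => ?_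
      conv_lhs => rw [f1, qf, map_smul, inner_smul_left, inner_smul_right, Complex.conj_ofReal,
        Complex.re_ofReal_mul, Complex.re_ofReal_mul]
      rw [← hn l, ← hv]; ring
    have c4 : Real.negMulLog (p l) / 2 = -(p l * Real.log ‖v‖) := by
      rw [Real.negMulLog, ← hn l, ← hv, Real.log_pow]; push_cast; ring
    have c5 : 0 ≤ p l := by rw [← hn l]; positivity
    rw [c3, c4]
    nlinarith [mul_le_mul_of_nonneg_left (c1.trans (sub_le_sub_right c2 _)) c5]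
  have := Finset.sum_le_sum fun l (_ : l ∈ univ) => key l
  rw [Finset.sum_add_distrib, Finset.sum_add_distrib, ← Finset.sum_mul, ← Finset.sum_mul, hs,
    Finset.sum_comm, ← Finset.sum_div] at this
  simp only [← Finset.mul_sum, hq, mul_sub, Finset.sum_sub_distrib, one_mul] at this
  rw [SX, ent]
  linarith

lemma var_le' {K : Type} [Fintype K] {h : K → Q.Op d} {Z : K → Finset ι} {E Δ t : ℝ}
    (hl : Loc h Z Ω E Δ) {X : Finset ι} (hX : 240 * cw h Z X ≤ t ^ 2 * Δ) :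
    ∑ i, ev (red (sb X) (pj Ω)) i * (-Real.log (ev (red (sb X) (pj Ω)) i) - SX X (pj Ω)) ^ 2 ≤
      t ^ 2 / 30 := by
  have h1 := var_le hl.supp hl.gap X
  have h2 : (∑ k, if Crosses (Z k) X then 8 * (dim d (Z k) : ℝ) ^ 2 * ‖h k‖ else 0) =
      8 * cw h Z X := by
    rw [cw, Finset.mul_sum]
    exact Finset.sum_congr rfl fun k _ => by split_ifs <;> ring
  rw [h2] at h1
  refine le_of_mul_le_mul_left (h1.trans (by linarith)) hl.pos

end sites

end Sub

open Crest.Agent.N336.T.Sub in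
theorem tiltSub (hE : EngStmt) (hN : EnergyStmt) : TiltSubStmt := by
  intro ι _ _ d _ _ _ K _ h Z Ω E Δ A m D δ t hl hc hD hδ hs hw ht hv
  have hΩ := hl.gap.norm
  have hd := dens_pj hΩ
  set B := SX D (pj Ω) + 1 with hB
  have hB0 : 0 < B := by linarith [hd.SX_nonneg D]
  set e : ℕ → ℝ := fun j => Real.exp (-SX (A j) (pj Ω) - B) with he
  set L : ℕ → ℝ := fun j => Real.exp (-SX (A j) (pj Ω) + B) with hL
  have hp : ∀ j < m, 0 < e j ∧ e j < L j ∧ 0 < δ j := fun j hj =>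
    ⟨Real.exp_pos _, e_lt hB0 _, (hδ j hj).1⟩
  obtain ⟨Y, χ, N, hS⟩ := hE ι d (-1) (Set.Ioo 0 1) (fun j => FF (e j) (L j) (δ j))
    (fun j => yy (e j) (L j) (δ j)) A m Ω (by norm_num) isOpen_Ioo Set.ordConnected_Ioo
    (fun x hx => hx.1) (by rintro rfl; simp at hΩ) hc.mono
    (fun j hj => barrier (hp j hj).1 (hp j hj).2.1 (hp j hj).2.2)
    fun j hj w hw => yy_deriv (hp j hj).2.1 (hp j hj).2.2 hw
  have h1 := (hN ι d K h Z Ω E Δ _ _ _ _ A m δ Y χ N hl hc hS fun j hj =>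
    ⟨(hδ j hj).1.le, (hδ j hj).2, fun x hx => yy_pos (hp j hj).1 (hp j hj).2.1 hx,
      fun a b ha hb => yy_lip (hp j hj).1 (hp j hj).2.1 (hp j hj).2.2 ha hb⟩).trans hw
  have h2 : Real.sqrt (1 - ‖⟪Ω, χ⟫_ℂ‖ ^ 2) ≤ 1 / 40 := by
    refine Real.sqrt_le_iff.2 ⟨by norm_num, le_of_mul_le_mul_left ?_ hl.pos⟩
    linarith
  have h3 := avg_le hp hS hΩ hD
  have l2 := Real.log_two_lt_d9
  have ht2 : 0 < t ^ 2 := by positivity
  have key : ∀ j < m, SX (A j) (pj Ω) - SX (A j \ D) (pj Ω) ≤ 2 * t + 1 + 2 * Real.log 2 + B / 5 +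
      (Ph (ph (e j) (L j)) (A j) χ - Ph (ph (e j) (L j)) (A j \ D) Ω) := by
    intro j hj
    obtain ⟨b1, b2, b3⟩ := hp j hj
    have pa := mg_posSemidef (A j) (pj_posSemidef χ)
    have c1 := klein_mg (f' := dph (e j) (L j)) (fun a b => ph_tangent b1 b2) pa (supp_mg _ _) Ω
    rw [tX_mg _ _ (pj_isHermitian χ), ← div_eq_inv_mul,
      ← Eng.qf_eq_trace_mg ((supp_mg _ _).fc _ pa.1)] at c1
    have c2 := close hΩ hS.norm (T := fr (dph (e j) (L j)) (mg (A j) (pj χ)))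
      (fr_posSemidef fun i => dph_nonneg b1 b2 (ev_nonneg pa i))
    have c3 : ‖fr (dph (e j) (L j)) (mg (A j) (pj χ))‖ ≤ 2 * B :=
      norm_fc_le (by positivity) fun i => by
        rw [Complex.norm_real, Real.norm_eq_abs,
          abs_of_nonneg (dph_nonneg b1 b2 (ev_nonneg pa i)), ← dph_zero (SX (A j) (pj Ω)) B]
        exact dph_le b1 b2 (ev_nonneg pa i)
    have c4 : 2 * ‖fr (dph (e j) (L j)) (mg (A j) (pj χ))‖ * Real.sqrt (1 - ‖⟪Ω, χ⟫_ℂ‖ ^ 2) ≤
        2 * (2 * B) * (1 / 40) := by gcongr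
    have c5 := Finset.sum_le_sum fun i (_ : i ∈ univ) => ph_ge hB0 ht (SX (A j) (pj Ω))
      (ev_nonneg (hd.red (sb (A j))).psd i)
    have c6 : SX (A j) (pj Ω) - SX (A j \ D) (pj Ω) ≤ B := by
      have := hd.SX_union_le (A j \ D) D
      rw [sdiff_union_of_subset (hD j hj)] at this
      linarith
    have c7 := Finset.sum_le_sum fun i (_ : i ∈ univ) => ph_le hB0 ht c6
      (ev_nonneg (hd.red (sb (A j \ D))).psd i)
    rw [Finset.sum_sub_distrib, ← Finset.sum_mul, ← Finset.mul_sum, (hd.red _).sum_ev] at c5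
    rw [Finset.sum_add_distrib, ← Finset.sum_mul, ← Finset.mul_sum, (hd.red _).sum_ev] at c7
    have c8 := mul_le_mul_of_nonneg_left (var_le' hl (hv j hj).1)
      (show 0 ≤ B / t ^ 2 by positivity)
    have c9 := mul_le_mul_of_nonneg_left (var_le' hl (hv j hj).2)
      (show 0 ≤ 2 * B / t ^ 2 by positivity)
    rw [show B / t ^ 2 * (t ^ 2 / 30) = B / 30 by field_simp] at c8
    rw [show 2 * B / t ^ 2 * (t ^ 2 / 30) = B / 15 by field_simp; norm_num] at c9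
    simp only [Ph, he, hL, qf] at c1 c2 c4 ⊢
    linarith
  by_contra hcon
  push Not at hcon
  have hm : (range m).Nonempty := by
    rw [Finset.nonempty_iff_ne_empty]
    intro h0
    rw [h0] at hs
    simp at hs
  have h4 := Finset.sum_lt_sum_of_nonempty hm fun j hj => mul_lt_mul_of_pos_left
    ((hcon j (mem_range.1 hj)).trans_le (key j (mem_range.1 hj))) (hδ j (mem_range.1 hj)).1
  simp only [mul_add (δ _) (2 * t + 1 + 2 * Real.log 2 + B / 5), mul_sub, Finset.sum_add_distrib,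
    Finset.sum_sub_distrib, ← Finset.sum_mul, hs] at h4
  linarith

end Crest.Agent.N336.T
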