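import Crest.Agent.N336.T.Defs

/-!
# Row 336: from the abstract tilt statement to the sub-volume law (helper73)

`sub_of : TiltSubStmt → A.SubStmt`.
-/

set_option autoImplicit false
set_option linter.unusedSectionVars false

open Matrix Finset
open scoped ComplexOrder MatrixOrder Matrix.Norms.L2Operator InnerProductSpace

namespace Crest.Agent.N336.T

open Crest.Agent.N336.Q Crest.Agent.N336.A

namespace SG

variable {q R : ℕ} {J Δ : ℝ} {Λ : Type} [Fintype Λ] [DecidableEq Λ]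

/-- no edge leaves `U` near the square -/
def Cl (s : Sys q R J Δ Λ) (U : Finset Λ) (x y : ℤ) (L : ℕ) : Prop :=
  ∀ a b, s.G.Adj a b → a ∈ U → a ∈ box s (x - R) (y - R) (L + 2 * R) → b ∈ U

lemma mem_box {s : Sys q R J Δ Λ} {x y w : ℤ} {a : Λ} : a ∈ box s x y w ↔
    x ≤ (s.pos a).1 ∧ (s.pos a).1 < x + w ∧ y ≤ (s.pos a).2 ∧ (s.pos a).2 < y + w := by
  simp [A.box]

lemma Cl.mono {s : Sys q R J Δ Λ} {U : Finset Λ} {x y x' y' : ℤ} {L L' : ℕ} (h : Cl s U x y L)
    (h1 : x ≤ x') (h2 : y ≤ y') (h3 : x' + L' ≤ x + L) (h4 : y' + L' ≤ y + L) :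
    Cl s U x' y' L' := fun a b hab ha hb => h a b hab ha (by
  rw [mem_box] at hb ⊢; omega)

/-- rectangles -/
def rect (s : Sys q R J Δ Λ) (x y : ℤ) (a b : ℕ) : Finset Λ :=
  univ.filter fun v => x ≤ (s.pos v).1 ∧ (s.pos v).1 < x + a ∧ y ≤ (s.pos v).2 ∧
    (s.pos v).2 < y + b

lemma mem_rect {s : Sys q R J Δ Λ} {x y : ℤ} {a b : ℕ} {v : Λ} : v ∈ rect s x y a b ↔
    x ≤ (s.pos v).1 ∧ (s.pos v).1 < x + a ∧ y ≤ (s.pos v).2 ∧ (s.pos v).2 < y + b := by
  simp [rect]

lemma card_rect (s : Sys q R J Δ Λ) (x y : ℤ) (a b : ℕ) : (rect s x y a b).card ≤ a * b := by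
  have h : (rect s x y a b).card ≤ (Finset.Ico x (x + a) ×ˢ Finset.Ico y (y + b)).card := by
    refine card_le_card_of_injOn s.pos (fun v hv => ?_) s.inj.injOn
    have := mem_rect.1 (mem_coe.1 hv)
    simp only [coe_product, coe_Ico, Set.mem_prod, Set.mem_Ico]
    omega
  rw [card_product, Int.card_Ico, Int.card_Ico] at h
  simpa using h

/-- the counting constant -/
def c1 (R : ℕ) : ℕ := 4 * R * 2 ^ ((2 * R + 1) ^ 2)

lemma cross_le {s : Sys q R J Δ Λ} {U : Finset Λ} {x y : ℤ} {L : ℕ} (h : Cl s U x y L) :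
    s.cross (U ∩ box s x y L) ≤ c1 R * L := by
  classical
  set rim := (rect s x y R L ∪ rect s (x + L - R) y R L) ∪
    (rect s x y L R ∪ rect s x (y + L - R) L R) with hrim
  have h1 : rim.card ≤ 4 * R * L := by
    have a1 := card_rect s x y R L
    have a2 := card_rect s (x + L - R) y R L
    have a3 := card_rect s x y L R
    have a4 := card_rect s x (y + L - R) L R
    have b1 := card_union_le (rect s x y R L) (rect s (x + L - R) y R L)
    have b2 := card_union_le (rect s x y L R) (rect s x (y + L - R) L R)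
    have b3 := card_union_le (rect s x y R L ∪ rect s (x + L - R) y R L)
      (rect s x y L R ∪ rect s x (y + L - R) L R)
    rw [mul_comm L R] at a3 a4
    rw [hrim, mul_assoc]; omega
  have h2 : s.cross (U ∩ box s x y L) ≤ (rim.biUnion fun v => (ball s v R).powerset).card := by
    rw [Sys.cross]
    refine card_le_card fun X hX => ?_
    simp only [mem_filter, mem_univ, true_and] at hX
    obtain ⟨h0, ⟨v, hv, hvA⟩, w, hw, hwA⟩ := hX
    have hb := sub_ball h0 hv
    refine mem_biUnion.2 ⟨v, ?_, mem_powerset.2 hb⟩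
    have hwU : w ∈ U := ball_sub_of_closed h hvA (hb hw)
    have hwb : w ∉ box s x y L := fun h' => hwA (mem_inter.2 ⟨hwU, h'⟩)
    obtain ⟨p1, p2⟩ := pos_near (hb hw)
    have hvb := mem_box.1 (mem_inter.1 hvA).2
    rw [mem_box] at hwb
    rw [abs_le] at p1 p2
    simp only [hrim, mem_union, mem_rect]
    omega
  refine h2.trans ((card_biUnion_le_card_mul _ _ (2 ^ ((2 * R + 1) ^ 2)) fun v _ => ?_).trans ?_)
  · rw [card_powerset]
    exact Nat.pow_le_pow_right (by norm_num) (card_ball_le s v R)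
  · calc rim.card * 2 ^ ((2 * R + 1) ^ 2) ≤ 4 * R * L * 2 ^ ((2 * R + 1) ^ 2) :=
          Nat.mul_le_mul_right _ h1
      _ = c1 R * L := by unfold c1; ring

lemma cross_sdiff (s : Sys q R J Δ Λ) (A D : Finset Λ) :
    s.cross (A \ D) ≤ s.cross A + s.cross D := by
  classical
  unfold Sys.cross
  refine le_trans (card_le_card fun X hX => ?_) (card_union_le _ _)
  simp only [mem_filter, mem_univ, true_and, mem_union, mem_sdiff] at hX ⊢
  obtain ⟨h0, ⟨v, hv, hvA, hvD⟩, w, hw, hwA⟩ := hX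
  by_cases hw' : w ∈ A
  · right
    refine ⟨h0, ⟨w, hw, ?_⟩, v, hv, hvD⟩
    by_contra h'
    exact hwA ⟨hw', h'⟩
  · exact Or.inl ⟨h0, ⟨v, hv, hvA⟩, w, hw, hw'⟩

lemma cw_le (hq : 1 ≤ q) (s : Sys q R J Δ Λ) (A : Finset Λ) :
    cw (d := fun _ : Λ => Fin q) s.h id A ≤ cT q R J * s.cross A := by
  have h := sum_crosses_le hq s A (c := 1) zero_le_one
  simp only [one_mul] at h
  exact h

lemma log_le_sum {l : ℕ} (hl : 1 ≤ l) (m : ℕ) :
    Real.log ((l + m : ℝ) / l) ≤ ∑ j ∈ range m, 1 / ((l : ℝ) + j) := by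
  have hl' : (0 : ℝ) < l := by exact_mod_cast hl
  induction m with
  | zero => simp [hl'.ne']
  | succ m ih =>
    rw [sum_range_succ]
    have hp : (0 : ℝ) < l + m := by positivity
    have e : ((l : ℝ) + (m + 1 : ℕ)) / l = (l + m) / l * (1 + 1 / (l + m)) := by
      push_cast; field_simp; ring
    have h2 : Real.log (1 + 1 / ((l : ℝ) + m)) ≤ 1 / (l + m) := by
      have := Real.log_le_sub_one_of_pos (x := 1 + 1 / ((l : ℝ) + m)) (by positivity)
      linarith
    rw [e, Real.log_mul (by positivity) (by positivity)]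
    linarith

section ent

variable {s : Sys q R J Δ Λ}

lemma S_SX (s : Sys q R J Δ Λ) (A : Finset Λ) :
    S s.Ω A = SX (d := fun _ : Λ => Fin q) A (pj s.Ω) := S_eq s.Ω A

lemma dens (s : Sys q R J Δ Λ) : Dens (pj (n := Cfg fun _ : Λ => Fin q) s.Ω) :=
  dens_pj (gap_sys s).norm

lemma S_le_card (hq : 1 ≤ q) (s : Sys q R J Δ Λ) (A : Finset Λ) :
    S s.Ω A ≤ A.card * Real.log q := by
  have : ∀ _ : Λ, Nonempty (Fin q) := fun _ => ⟨⟨0, hq⟩⟩
  rw [S_SX]
  refine ((dens s).SX_le A).trans (le_of_eq ?_)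
  rw [dim_const, Fintype.card_fin]
  push_cast
  rw [Real.log_pow]

lemma S_union (hq : 1 ≤ q) (s : Sys q R J Δ Λ) (A B : Finset Λ) :
    S s.Ω (A ∪ B) ≤ S s.Ω A + S s.Ω B := by
  have : ∀ _ : Λ, Nonempty (Fin q) := fun _ => ⟨⟨0, hq⟩⟩
  simp only [S_SX]
  exact (dens s).SX_union_le A B

lemma S_biUnion (hq : 1 ≤ q) (s : Sys q R J Δ Λ) {κ : Type} [DecidableEq κ] (T : Finset κ)
    (f : κ → Finset Λ) {B : ℝ} (h : ∀ i ∈ T, S s.Ω (f i) ≤ B) :
    S s.Ω (T.biUnion f) ≤ T.card * B := by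
  induction T using Finset.induction_on with
  | empty => simpa using S_le_card hq s ∅
  | insert i T hi ih =>
    rw [biUnion_insert, card_insert_of_notMem hi]
    have h1 := S_union hq s (f i) (T.biUnion f)
    have h2 := h i (mem_insert_self _ _)
    have h3 := ih fun j hj => h j (mem_insert_of_mem hj)
    push_cast
    linarith

end ent

/-- the chain of squares -/
def ch (s : Sys q R J Δ Λ) (U : Finset Λ) (x y : ℤ) (l j : ℕ) : Finset Λ :=
  U ∩ box s (x - (j * (R + 1) : ℕ)) (y - (j * (R + 1) : ℕ)) ((l + 2 * (j * (R + 1)) : ℕ) : ℤ)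

lemma ch_mono (s : Sys q R J Δ Λ) (U : Finset Λ) (x y : ℤ) (l : ℕ) {i j : ℕ} (h : i ≤ j) :
    ch s U x y l i ⊆ ch s U x y l j := by
  have := Nat.mul_le_mul_right (R + 1) h
  intro v hv
  simp only [ch, mem_inter, mem_box] at hv ⊢
  refine ⟨hv.1, ?_⟩
  have := hv.2
  omega

lemma ch_term {s : Sys q R J Δ Λ} {U : Finset Λ} {x y : ℤ} {l i j : ℕ}
    (hc : Cl s U (x - (i * (R + 1) : ℕ)) (y - (i * (R + 1) : ℕ)) (l + 2 * (i * (R + 1))))
    {X : Finset Λ} (hX : s.h X ≠ 0) (hij : i < j) (hx : ∃ v ∈ X, v ∈ ch s U x y l i) :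
    X ⊆ ch s U x y l j := by
  obtain ⟨v, hv, hvA⟩ := hx
  have hb := sub_ball hX hv
  intro w hw
  have hwU : w ∈ U := ball_sub_of_closed hc hvA (hb hw)
  obtain ⟨p1, p2⟩ := pos_near (hb hw)
  rw [abs_le] at p1 p2
  have h1 : (i + 1) * (R + 1) ≤ j * (R + 1) := Nat.mul_le_mul_right _ hij
  rw [add_mul, one_mul] at h1
  simp only [ch, mem_inter, mem_box] at hvA ⊢
  refine ⟨hwU, ?_⟩
  have := hvA.2
  omega

lemma union_sdiff_aux {D A Q : Finset Λ} (h1 : D ⊆ A) (h2 : A ⊆ Q) : A ∪ Q \ D = Q := by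
  ext v
  have := @h1 v
  have := @h2 v
  simp only [mem_union, mem_sdiff]
  tauto

lemma inter_sdiff_aux {D A Q : Finset Λ} (h2 : A ⊆ Q) : A ∩ (Q \ D) = A \ D := by
  ext v
  have := @h2 v
  simp only [mem_inter, mem_sdiff]
  tauto

set_option maxHeartbeats 800000 in
/-- one step: the central small square is weakly correlated with the rest -/
theorem one_step (H : TiltSubStmt) (q R : ℕ) (J Δ : ℝ) (hq : 1 ≤ q) (hJ : 0 < J) (hΔ : 0 < Δ) :
    ∃ (a : ℕ) (C : ℝ), 1 ≤ a ∧ 0 ≤ C ∧ ∀ (Λ : Type) [Fintype Λ] [DecidableEq Λ]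
      (s : Sys q R J Δ Λ) (U : Finset Λ) (x y : ℤ) (l : ℕ), 1 ≤ l →
      Cl s U x y ((2 * a + 1) * l) →
      S s.Ω (U ∩ box s x y (((2 * a + 1) * l : ℕ) : ℤ)) ≤
        S s.Ω ((U ∩ box s x y (((2 * a + 1) * l : ℕ) : ℤ)) \
          (U ∩ box s (x + (a * l : ℕ)) (y + (a * l : ℕ)) l)) +
        7 / 10 * S s.Ω (U ∩ box s (x + (a * l : ℕ)) (y + (a * l : ℕ)) l) + C * l := by
  have hT := cT_pos hq R hJ
  set c2 : ℝ := cT q R J * c1 R * (1 + 2 * (R + 1)) with hc2
  have hc20 : 0 ≤ c2 := by positivity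
  set H0 : ℝ := 4 + 32 * 1600 * c2 / Δ with hH0
  obtain ⟨k, hk⟩ := exists_nat_ge (Real.exp H0)
  have hH4 : 4 ≤ H0 := by
    have : 0 ≤ 32 * 1600 * c2 / Δ := by positivity
    linarith
  have hk1 : 1 ≤ k := by
    have := Real.add_one_le_exp H0
    have h2 : (1 : ℝ) ≤ k := by linarith
    exact_mod_cast h2
  have hlog : H0 ≤ Real.log (1 + k) := by
    rw [Real.le_log_iff_exp_le (by positivity)]; linarith
  set T : ℝ := 1 + 480 * c2 * (1 + k) / Δ with hTdef
  have hT1 : 1 ≤ T := by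
    have : 0 ≤ 480 * c2 * (1 + k) / Δ := by positivity
    linarith
  refine ⟨k * (R + 1), 2 * T + 3, Nat.mul_pos hk1 (by omega), by positivity, ?_⟩
  intro Λ _ _ s U x y l hl hc
  have : ∀ _ : Λ, Nonempty (Fin q) := fun _ => ⟨⟨0, hq⟩⟩
  set a := k * (R + 1) with ha
  set x' : ℤ := x + (a * l : ℕ) with hx'
  set y' : ℤ := y + (a * l : ℕ) with hy'
  set m := k * l with hm
  have hl' : (1 : ℝ) ≤ l := by exact_mod_cast hl
  have hjr : ∀ j < m, j * (R + 1) ≤ a * l := fun j hj => by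
    calc j * (R + 1) ≤ m * (R + 1) := Nat.mul_le_mul_right _ hj.le
      _ = a * l := by rw [hm, ha]; ring
  have eM : (2 * a + 1) * l = 2 * (a * l) + l := by ring
  have hcl : ∀ j < m, Cl s U (x' - (j * (R + 1) : ℕ)) (y' - (j * (R + 1) : ℕ))
      (l + 2 * (j * (R + 1))) := fun j hj => by
    have := hjr j hj
    refine hc.mono ?_ ?_ ?_ ?_ <;> omega
  have hm0 : 0 < m := Nat.mul_pos hk1 hl
  have hD : ch s U x' y' l 0 = U ∩ box s x' y' l := by simp [ch]
  have hclD : Cl s U x' y' l := by simpa using hcl 0 hm0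
  -- crossing weights
  have hcr : ∀ j < m, cT q R J * s.cross (ch s U x' y' l j) ≤ c2 * (l + j) := fun j hj => by
    have h1 : (s.cross (ch s U x' y' l j) : ℝ) ≤ c1 R * ((l + 2 * (j * (R + 1)) : ℕ) : ℝ) := by
      exact_mod_cast cross_le (hcl j hj)
    have h2 : ((l + 2 * (j * (R + 1)) : ℕ) : ℝ) ≤ (1 + 2 * (R + 1)) * (l + j) := by
      push_cast
      have : (0 : ℝ) ≤ j := by positivity
      have : (0 : ℝ) ≤ R := by positivity
      nlinarith
    calc cT q R J * s.cross (ch s U x' y' l j)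
        ≤ cT q R J * (c1 R * ((1 + 2 * (R + 1)) * (l + j))) := by
          gcongr
          exact h1.trans (by gcongr)
      _ = c2 * (l + j) := by rw [hc2]; ring
  set Hs : ℝ := ∑ j ∈ range m, 1 / ((l : ℝ) + j) with hHs
  have hHs0 : H0 ≤ Hs := by
    refine hlog.trans (le_trans (le_of_eq ?_) (log_le_sum hl m))
    congr 1
    rw [hm]; push_cast; field_simp
  have hHp : 0 < Hs := by linarith
  have hlj : ∀ j : ℕ, (1 : ℝ) ≤ l + j := fun j => by
    have : (0 : ℝ) ≤ j := by positivity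
    linarith
  have hmj : ∀ j < m, (l : ℝ) + j ≤ (1 + k) * l := fun j hj => by
    have : (j : ℝ) ≤ (m : ℕ) := by exact_mod_cast hj.le
    rw [hm] at this; push_cast at this; linarith
  have ht : 480 * (c2 * ((1 + k) * l)) ≤ (T * l) ^ 2 * Δ := by
    have h1 : 480 * c2 * (1 + k) ≤ T * Δ := by
      rw [hTdef, add_mul, div_mul_cancel₀ _ hΔ.ne']; linarith
    have h2 : T * l ≤ (T * l) ^ 2 := by
      have : 1 ≤ T * l := by nlinarith
      nlinarith
    calc 480 * (c2 * ((1 + k) * l)) = 480 * c2 * (1 + k) * l := by ring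
      _ ≤ T * Δ * l := by gcongr
      _ = T * l * Δ := by ring
      _ ≤ _ := by gcongr
  obtain ⟨j, hj, hS⟩ := H Λ (fun _ => Fin q) (Finset Λ) s.h id s.Ω s.E Δ (ch s U x' y' l) m
    (U ∩ box s x' y' l) (fun j => 1 / ((l + j) * Hs)) (T * l)
    ⟨h_supp s, h_herm s, gap_sys s, hΔ⟩
    ⟨fun i j hij _ => ch_mono s U x' y' l hij,
      fun X hX i j hij hj hx => ch_term (hcl i (by omega)) hX hij hx⟩
    (fun j _ => hD ▸ ch_mono s U x' y' l (Nat.zero_le j))
    (fun j _ => by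
      have := hlj j
      refine ⟨by positivity, ?_⟩
      rw [div_le_div_iff₀ (by positivity) (by norm_num)]
      nlinarith)
    (by
      have : ∀ j : ℕ, 1 / (((l : ℝ) + j) * Hs) = 1 / (l + j) * (1 / Hs) := fun j => by
        have := hlj j; field_simp
      simp only [this]
      rw [← sum_mul, ← hHs]; field_simp)
    (by
      calc ∑ j ∈ range m, 32 * (1 / (((l : ℝ) + j) * Hs)) ^ 2 *
            cw (d := fun _ : Λ => Fin q) s.h id (ch s U x' y' l j)
          ≤ ∑ j ∈ range m, 1 / ((l : ℝ) + j) * (32 * c2 / Hs ^ 2) := by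
            refine sum_le_sum fun j hj => ?_
            have h1 := (cw_le hq s _).trans (hcr j (mem_range.1 hj))
            have h2 := hlj j
            calc _ ≤ 32 * (1 / (((l : ℝ) + j) * Hs)) ^ 2 * (c2 * (l + j)) := by gcongr
              _ = _ := by field_simp
        _ = 32 * c2 / Hs := by rw [← sum_mul, ← hHs]; field_simp
        _ ≤ Δ / 1600 := by
            rw [div_le_div_iff₀ hHp (by norm_num)]
            have h1 : 32 * 1600 * c2 / Δ ≤ Hs := by linarith
            rw [div_le_iff₀ hΔ] at h1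
            linarith)
    (by positivity)
    (fun j hj => by
      have h1 := hcr j hj
      have h2 := hcr 0 hm0
      have h3 : c2 * ((l : ℝ) + j) ≤ c2 * ((1 + k) * l) := by gcongr; exact hmj j hj
      have h4 : c2 * ((l : ℝ) + (0 : ℕ)) ≤ c2 * ((1 + k) * l) := by gcongr; exact hmj 0 hm0
      have h5 : 0 ≤ c2 * ((1 + k) * l) := by positivity
      have h6 := cw_le hq s (ch s U x' y' l j)
      have h7 := cw_le hq s (ch s U x' y' l j \ (U ∩ box s x' y' l))
      have h8 : (s.cross (ch s U x' y' l j \ (U ∩ box s x' y' l)) : ℝ) ≤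
          s.cross (ch s U x' y' l j) + s.cross (ch s U x' y' l 0) := by
        rw [hD]
        exact_mod_cast cross_sdiff s _ _
      have h9 := mul_le_mul_of_nonneg_left h8 hT.le
      rw [mul_add] at h9
      constructor <;> linarith)
  set Q := U ∩ box s x y (((2 * a + 1) * l : ℕ) : ℤ) with hQ
  have hAQ : ch s U x' y' l j ⊆ Q := fun v hv => by
    have := hjr j hj
    simp only [ch, hQ, mem_inter, mem_box] at hv ⊢
    refine ⟨hv.1, ?_⟩
    have := hv.2
    omega
  have hDA : U ∩ box s x' y' l ⊆ ch s U x' y' l j := hD ▸ ch_mono s U x' y' l (Nat.zero_le j)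
  have h1 := SX_submod (d := fun _ : Λ => Fin q) (ch s U x' y' l j) (Q \ (U ∩ box s x' y' l))
    (dens s).psd
  have e1 : ch s U x' y' l j ∪ Q \ (U ∩ box s x' y' l) = Q := by
    exact union_sdiff_aux hDA hAQ
  have e2 : ch s U x' y' l j ∩ (Q \ (U ∩ box s x' y' l)) =
      ch s U x' y' l j \ (U ∩ box s x' y' l) := by
    exact inter_sdiff_aux hAQ
  rw [e1, e2] at h1
  simp only [S_SX]
  linarith

lemma tiling (s : Sys q R J Δ Λ) (U : Finset Λ) (x y : ℤ) (M a : ℕ) {l : ℕ} (hl : 1 ≤ l) :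
    (U ∩ box s x y ((M * l : ℕ) : ℤ)) \ (U ∩ box s (x + (a * l : ℕ)) (y + (a * l : ℕ)) l) =
      ((range M ×ˢ range M).erase (a, a)).biUnion fun p =>
        U ∩ box s (x + (p.1 * l : ℕ)) (y + (p.2 * l : ℕ)) l := by
  have key : ∀ z : ℤ, 0 ≤ z → z < (M * l : ℕ) → ∃ b < M, ((b * l : ℕ) : ℤ) ≤ z ∧
      z < (b * l : ℕ) + l := fun z h0 h1 => by
    obtain ⟨n, rfl⟩ := Int.eq_ofNat_of_zero_le h0
    refine ⟨n / l, (Nat.div_lt_iff_lt_mul hl).2 (by exact_mod_cast h1), ?_, ?_⟩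
    · exact_mod_cast Nat.div_mul_le_self n l
    · exact_mod_cast Nat.lt_div_mul_add hl
  have up : ∀ b c : ℕ, b < c → b * l + l ≤ c * l := fun b c h => by
    have := Nat.mul_le_mul_right l (Nat.succ_le_of_lt h)
    rwa [Nat.succ_mul] at this
  ext v
  simp only [mem_sdiff, mem_inter, mem_box, mem_biUnion, mem_erase, mem_product, mem_range]
  constructor
  · rintro ⟨⟨hU, h1⟩, h2⟩
    obtain ⟨b, hb, b1, b2⟩ := key ((s.pos v).1 - x) (by omega) (by omega)
    obtain ⟨c, hc, c1, c2⟩ := key ((s.pos v).2 - y) (by omega) (by omega)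
    refine ⟨(b, c), ⟨fun h => h2 ⟨hU, ?_⟩, hb, hc⟩, hU, ?_⟩
    · obtain ⟨rfl, rfl⟩ := Prod.mk.inj h
      omega
    · dsimp only; omega
  · rintro ⟨⟨b, c⟩, ⟨hne, hb, hc⟩, hU, h⟩
    dsimp only at hb hc h
    have u1 := up b M hb
    have u2 := up c M hc
    refine ⟨⟨hU, by omega⟩, fun h' => hne ?_⟩
    have h2 := h'.2
    have e1 : b = a := by
      rcases lt_trichotomy b a with h3 | h3 | h3
      · have := up _ _ h3; omega
      · exact h3
      · have := up _ _ h3; omega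
    have e2 : c = a := by
      rcases lt_trichotomy c a with h3 | h3 | h3
      · have := up _ _ h3; omega
      · exact h3
      · have := up _ _ h3; omega
    rw [e1, e2]

/-- the recursion -/
theorem recur (H : TiltSubStmt) (q R : ℕ) (J Δ : ℝ) (hq : 1 ≤ q) (hJ : 0 < J) (hΔ : 0 < Δ) :
    ∃ (M : ℕ) (C : ℝ), 2 ≤ M ∧ 0 ≤ C ∧ ∀ (Λ : Type) [Fintype Λ] [DecidableEq Λ]
      (s : Sys q R J Δ Λ) (U : Finset Λ) (x y : ℤ) (L : ℕ) (B : ℝ), M ≤ L → Cl s U x y L →
      (∀ x' y', Cl s U x' y' (L / M) → S s.Ω (U ∩ box s x' y' ((L / M : ℕ) : ℤ)) ≤ B) →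
      S s.Ω (U ∩ box s x y L) ≤ ((M : ℝ) ^ 2 - 3 / 10) * B + C * L := by
  obtain ⟨a, C, ha, hC, h⟩ := one_step H q R J Δ hq hJ hΔ
  have hlq : 0 ≤ Real.log q := Real.log_nonneg (by exact_mod_cast hq)
  set M := 2 * a + 1 with hM
  refine ⟨M, C + 2 * M * Real.log q, by omega, by positivity, ?_⟩
  intro Λ _ _ s U x y L B hL hc hB
  set l := L / M with hl
  have hl1 : 1 ≤ l := (Nat.le_div_iff_mul_le (by omega)).2 (by omega)
  have hMl : M * l ≤ L := Nat.mul_div_le L M
  have hMl' : L < M * l + M := Nat.lt_mul_div_succ L (by omega)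
  have hlL : (l : ℝ) ≤ L := by exact_mod_cast Nat.div_le_self L M
  have up : ∀ b < M, b * l + l ≤ M * l := fun b h => by
    have := Nat.mul_le_mul_right l (Nat.succ_le_of_lt h)
    rwa [Nat.succ_mul] at this
  have hsq : ∀ b < M, ∀ c < M, S s.Ω (U ∩ box s (x + (b * l : ℕ)) (y + (c * l : ℕ)) l) ≤ B :=
    fun b hb c hc' => hB _ _ (by
      have := up b hb
      have := up c hc'
      refine hc.mono ?_ ?_ ?_ ?_ <;> omega)
  have h1 := h Λ s U x y l hl1 (hc.mono le_rfl le_rfl (by omega) (by omega))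
  rw [tiling s U x y M a hl1] at h1
  have h2 := S_biUnion hq s ((range M ×ˢ range M).erase (a, a))
    (fun p => U ∩ box s (x + (p.1 * l : ℕ)) (y + (p.2 * l : ℕ)) l) (B := B) fun p hp => by
      have := mem_product.1 (mem_of_mem_erase hp)
      exact hsq _ (mem_range.1 this.1) _ (mem_range.1 this.2)
  have hc3 : (((range M ×ˢ range M).erase (a, a)).card : ℝ) = (M : ℝ) ^ 2 - 1 := by
    rw [card_erase_of_mem (mem_product.2 ⟨mem_range.2 (by omega), mem_range.2 (by omega)⟩),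
      card_product, card_range, Nat.cast_sub (Nat.mul_pos (by omega) (by omega))]
    push_cast; ring
  rw [hc3] at h2
  have h3 := hsq a (by omega) a (by omega)
  set St := (U ∩ box s x y L) \ (U ∩ box s x y ((M * l : ℕ) : ℤ)) with hSt
  have e : U ∩ box s x y L = (U ∩ box s x y ((M * l : ℕ) : ℤ)) ∪ St := by
    rw [hSt, union_sdiff_of_subset]
    intro v hv
    simp only [mem_inter, mem_box] at hv ⊢
    refine ⟨hv.1, ?_⟩
    have := hv.2
    omega
  have h4 : St.card ≤ 2 * M * L := by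
    have a1 := card_rect s (x + (M * l : ℕ)) y M L
    have a2 := card_rect s x (y + (M * l : ℕ)) L M
    have a3 : St ⊆ rect s (x + (M * l : ℕ)) y M L ∪ rect s x (y + (M * l : ℕ)) L M := by
      intro v hv
      simp only [hSt, mem_sdiff, mem_inter, mem_box, mem_union, mem_rect, not_and] at hv ⊢
      have b1 := hv.1.2
      have b2 := hv.2 hv.1.1
      omega
    have a4 := (card_le_card a3).trans (card_union_le _ _)
    rw [mul_comm L M] at a2
    rw [mul_assoc]; omega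
  have h5 : S s.Ω St ≤ 2 * M * L * Real.log q :=
    (S_le_card hq s St).trans (by gcongr; exact_mod_cast h4)
  have h6 := S_union hq s (U ∩ box s x y ((M * l : ℕ) : ℤ)) St
  rw [← e] at h6
  have h7 : C * l ≤ C * L := by gcongr
  nlinarith

lemma exists_eta {M : ℝ} (hM : 0 < M) :
    ∃ η : ℝ, 0 < η ∧ η ≤ 1 ∧ M ^ 2 - 3 / 10 < M ^ (2 - η) := by
  have hc : Continuous fun η : ℝ => M ^ (2 - η) :=
    (Real.continuous_const_rpow hM.ne').comp (by fun_prop)
  have h0 : M ^ 2 - 3 / 10 < M ^ ((2 : ℝ) - 0) := by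
    rw [sub_zero, Real.rpow_two]; linarith
  have h1 : ∀ᶠ η in nhdsWithin (0 : ℝ) (Set.Ioi 0), M ^ 2 - 3 / 10 < M ^ (2 - η) :=
    nhdsWithin_le_nhds (hc.continuousAt.eventually (lt_mem_nhds h0))
  obtain ⟨η, h2, h3⟩ := (h1.and (Ioc_mem_nhdsGT (zero_lt_one' ℝ))).exists
  exact ⟨η, h3.1, h3.2, h2⟩

end SG

open SG in
theorem sub_of (H : TiltSubStmt) : A.SubStmt := by
  intro q R J Δ hq hJ hΔ
  obtain ⟨M, C, hM, hC, h⟩ := recur H q R J Δ hq hJ hΔ
  have hM' : (2 : ℝ) ≤ M := by exact_mod_cast hM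
  obtain ⟨η, h0, h1, hη⟩ := exists_eta (M := M) (by linarith)
  have hlq : 0 ≤ Real.log q := Real.log_nonneg (by exact_mod_cast hq)
  have hP : 0 < (M : ℝ) ^ (2 - η) := by positivity
  set κ : ℝ := ((M : ℝ) ^ 2 - 3 / 10) / (M : ℝ) ^ (2 - η) with hκ
  have hκ1 : κ < 1 := (div_lt_one hP).2 hη
  have hM3 : 0 ≤ (M : ℝ) ^ 2 - 3 / 10 := by nlinarith
  have hκ' : 0 < 1 - κ := by linarith
  set C' : ℝ := C / (1 - κ) + M * Real.log q + 1 with hC'
  have hq1 : 0 ≤ C / (1 - κ) := by positivity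
  have hq2 : 0 ≤ M * Real.log q := by positivity
  have hC0 : 0 < C' := by positivity
  refine ⟨η, C', h0, h1, hC0, fun Λ _ _ s U x y L => ?_⟩
  change Cl s U x y L → _
  induction L using Nat.strong_induction_on generalizing x y with
  | _ L ih =>
    intro hc
    have hLp : (L : ℝ) ≤ (L : ℝ) ^ (2 - η) := by
      rcases Nat.eq_zero_or_pos L with rfl | hL
      · simpa using Real.rpow_nonneg le_rfl _
      · conv_lhs => rw [← Real.rpow_one (L : ℝ)]
        exact Real.rpow_le_rpow_of_exponent_le (by exact_mod_cast hL) (by linarith)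
    have hL0 : (0 : ℝ) ≤ L := by positivity
    rcases lt_or_ge L M with hL | hL
    · have a1 : (U ∩ box s x y L).card ≤ L * L :=
        (card_le_card fun v hv => mem_rect.2 (mem_box.1 (mem_inter.1 hv).2)).trans
          (card_rect s x y L L)
      have a2 : ((U ∩ box s x y L).card : ℝ) ≤ M * L := by
        exact_mod_cast a1.trans (Nat.mul_le_mul_right L hL.le)
      calc S s.Ω (U ∩ box s x y L) ≤ M * L * Real.log q :=
            (S_le_card hq s _).trans (by gcongr)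
        _ = M * Real.log q * L := by ring
        _ ≤ C' * (L : ℝ) ^ (2 - η) := by gcongr; linarith
    · have b1 := h Λ s U x y L (C' * ((L / M : ℕ) : ℝ) ^ (2 - η)) hL hc fun x' y' hc' =>
        ih (L / M) (Nat.div_lt_self (by omega) (by omega)) x' y' hc'
      have b2 : ((L / M : ℕ) : ℝ) ^ (2 - η) ≤ (L : ℝ) ^ (2 - η) / (M : ℝ) ^ (2 - η) := by
        rw [← Real.div_rpow hL0 (by positivity)]
        exact Real.rpow_le_rpow (by positivity) Nat.cast_div_le (by linarith)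
      have b3 : ((M : ℝ) ^ 2 - 3 / 10) * (C' * ((L / M : ℕ) : ℝ) ^ (2 - η)) ≤
          κ * C' * (L : ℝ) ^ (2 - η) := by
        calc _ ≤ ((M : ℝ) ^ 2 - 3 / 10) * (C' * ((L : ℝ) ^ (2 - η) / (M : ℝ) ^ (2 - η))) := by
              gcongr
          _ = _ := by rw [hκ]; field_simp
      have b4 : C ≤ (1 - κ) * C' := by
        rw [hC', mul_add, mul_add, mul_div_cancel₀ _ hκ'.ne']
        have : 0 ≤ (1 - κ) * (M * Real.log q) := by positivity
        linarith
      have b5 : C * L ≤ (1 - κ) * C' * (L : ℝ) ^ (2 - η) := by gcongr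
      linarith

end Crest.Agent.N336.T
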