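import Crest.Agent.N336.T.Flat

/-!
# Row 336: the tilt engine, definitions and frozen statements (helper87)

* `seg Y k l = Y (k+l-1) * ⋯ * Y k`, the functional `LL`, admissible families `Adm`
* `Stat` : a positive minimiser with its stationarity equations
* `EngStmt` (existence), `EnergyStmt` (the tilted state has small energy),
  `TiltSubStmt` (abstract item 3), `TiltPLStmt` (abstract patch lemma)
-/

set_option autoImplicit false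
set_option linter.unusedSectionVars false

open Matrix Finset
open scoped ComplexOrder MatrixOrder Matrix.Norms.L2Operator InnerProductSpace

namespace Crest.Agent.N336.T

open Crest.Agent.N336.Q Crest.Agent.N336.A

section matrices

variable {n : Type} [Fintype n] [DecidableEq n]

/-- the ordered product `Y (k + l - 1) * ⋯ * Y k` -/
noncomputable def seg (Y : ℕ → Matrix n n ℂ) (k : ℕ) : ℕ → Matrix n n ℂ
  | 0 => 1
  | l + 1 => Y (k + l) * seg Y k l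

/-- bounds `a ≤ W ≤ b` for the quadratic form -/
def Bw (a b : ℝ) (W : Matrix n n ℂ) : Prop :=
  ∀ v : Q.Vec n, a * ‖v‖ ^ 2 ≤ (⟪v, ap W v⟫_ℂ).re ∧ (⟪v, ap W v⟫_ℂ).re ≤ b * ‖v‖ ^ 2

/-- the trace function `tr F(W)` -/
noncomputable def tF (F : ℝ → ℝ) (W : Matrix n n ℂ) : ℝ := ∑ i, F (ev W i)

end matrices

/-- `F` is smooth on `I` and blows up at the ends of `I` -/
structure Barrier (s : ℝ) (I : Set ℝ) (F : ℝ → ℝ) : Prop where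
  smooth : ContDiffOn ℝ 2 F I
  sub : ∀ c : ℝ, 0 < c → ∀ M : ℝ, ∃ a ∈ I, ∃ b ∈ I, ∀ w ∈ I,
    c * F w + min (s * Real.log w) 0 ≤ M → a ≤ w ∧ w ≤ b

section sites

variable {ι : Type} [Fintype ι] [DecidableEq ι]
  {d : ι → Type} [∀ x, Fintype (d x)] [∀ x, DecidableEq (d x)]

/-- `tr_X F(W)` for an operator `W` living on `X` -/
noncomputable def tX (X : Finset ι) (F : ℝ → ℝ) (W : Q.Op d) : ℝ := (dim d Xᶜ : ℝ)⁻¹ * tF F W

/-- admissible families -/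
def Adm (I : Set ℝ) (A : ℕ → Finset ι) (m : ℕ) (Y : ℕ → Q.Op d) : Prop :=
  ∀ j < m, Supp (A j) (Y j) ∧ ∀ i, ev ((Y j)ᴴ * Y j) i ∈ I

/-- the functional -/
noncomputable def LL (s : ℝ) (F : ℕ → ℝ → ℝ) (A : ℕ → Finset ι) (m : ℕ) (Ω : Q.Vec (Cfg d))
    (Y : ℕ → Q.Op d) : ℝ :=
  s * Real.log (‖ap (seg Y 0 m) Ω‖ ^ 2) + ∑ j ∈ range m, tX (A j) (F j) ((Y j)ᴴ * Y j)

/-- a minimiser `Y` in the positive gauge; `N • χ` is the tilted state -/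
structure Stat (s : ℝ) (I : Set ℝ) (F : ℕ → ℝ → ℝ) (A : ℕ → Finset ι) (m : ℕ)
    (Ω : Q.Vec (Cfg d)) (y : ℕ → ℝ → ℝ) (Y : ℕ → Q.Op d) (χ : Q.Vec (Cfg d)) (N : ℝ) : Prop where
  adm : Adm I A m Y
  min : ∀ Y', Adm I A m Y' → LL s F A m Ω Y ≤ LL s F A m Ω Y'
  norm : ‖χ‖ = 1
  pos : 0 < N
  chi : ap (seg Y 0 m) Ω = (N : ℂ) • χ
  eq : ∀ j < m, Y j = fr (y j) (mg (A j) (pj χ))
  phi : ∀ k ≤ m, ∀ X : Q.Op d, (k < m → Supp (A k) X) →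
    ⟪χ, ap (seg Y k (m - k) * X * seg Y 0 k) Ω⟫_ℂ = N * ⟪χ, ap X χ⟫_ℂ

variable {K : Type} [Fintype K]

/-- a gapped Hamiltonian `∑ h k` with supports `Z k` -/
structure Loc (h : K → Q.Op d) (Z : K → Finset ι) (Ω : Q.Vec (Cfg d)) (E Δ : ℝ) : Prop where
  supp : ∀ k, Supp (Z k) (h k)
  herm : ∀ k, (h k).IsHermitian
  gap : Gap (∑ k, h k) Ω E Δ
  pos : 0 < Δ

/-- an increasing chain such that every term crosses at most one cut -/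
structure Chain (h : K → Q.Op d) (Z : K → Finset ι) (A : ℕ → Finset ι) (m : ℕ) : Prop where
  mono : ∀ i j, i ≤ j → j < m → A i ⊆ A j
  term : ∀ k, h k ≠ 0 → ∀ i j, i < j → j < m → (∃ x ∈ Z k, x ∈ A i) → Z k ⊆ A j

/-- weight of the terms crossing the boundary of `X` -/
noncomputable def cw (h : K → Q.Op d) (Z : K → Finset ι) (X : Finset ι) : ℝ :=
  ∑ k, if Crosses (Z k) X then (dim d (Z k) : ℝ) ^ 2 * ‖h k‖ else 0

end sites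

/-- existence of a stationary minimiser -/
def EngStmt : Prop :=
  ∀ (ι : Type) [Fintype ι] [DecidableEq ι] (d : ι → Type) [∀ x, Fintype (d x)]
    [∀ x, DecidableEq (d x)] [∀ x, Nonempty (d x)] (s : ℝ) (I : Set ℝ) (F y : ℕ → ℝ → ℝ)
    (A : ℕ → Finset ι) (m : ℕ) (Ω : Q.Vec (Cfg d)),
    s ≠ 0 → IsOpen I → I.OrdConnected → I ⊆ Set.Ioi 0 → Ω ≠ 0 →
    (∀ i j, i ≤ j → j < m → A i ⊆ A j) → (∀ j < m, Barrier s I (F j)) →
    (∀ j < m, ∀ w ∈ I, y j (-(w * deriv (F j) w) / s) = Real.sqrt w) →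
    ∃ Y χ N, Stat s I F A m Ω y Y χ N

/-- the tilted state has small energy -/
def EnergyStmt : Prop :=
  ∀ (ι : Type) [Fintype ι] [DecidableEq ι] (d : ι → Type) [∀ x, Fintype (d x)]
    [∀ x, DecidableEq (d x)] [∀ x, Nonempty (d x)] (K : Type) [Fintype K] (h : K → Q.Op d)
    (Z : K → Finset ι) (Ω : Q.Vec (Cfg d)) (E Δ s : ℝ) (I : Set ℝ) (F y : ℕ → ℝ → ℝ)
    (A : ℕ → Finset ι) (m : ℕ) (δ : ℕ → ℝ) (Y : ℕ → Q.Op d) (χ : Q.Vec (Cfg d)) (N : ℝ),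
    Loc h Z Ω E Δ → Chain h Z A m → Stat s I F A m Ω y Y χ N →
    (∀ j < m, 0 ≤ δ j ∧ δ j ≤ 1 / 4 ∧ (∀ x, 0 ≤ x → 0 < y j x) ∧ ∀ a b, 0 < a → 0 < b →
      |Real.log (y j a) - Real.log (y j b)| ≤ δ j * |Real.log a - Real.log b|) →
    Δ * (1 - ‖⟪Ω, χ⟫_ℂ‖ ^ 2) ≤ ∑ j ∈ range m, 32 * δ j ^ 2 * cw h Z (A j)

/-- abstract form of item 3 -/
def TiltSubStmt : Prop :=
  ∀ (ι : Type) [Fintype ι] [DecidableEq ι] (d : ι → Type) [∀ x, Fintype (d x)]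
    [∀ x, DecidableEq (d x)] [∀ x, Nonempty (d x)] (K : Type) [Fintype K] (h : K → Q.Op d)
    (Z : K → Finset ι) (Ω : Q.Vec (Cfg d)) (E Δ : ℝ) (A : ℕ → Finset ι) (m : ℕ) (D : Finset ι)
    (δ : ℕ → ℝ) (t : ℝ),
    Loc h Z Ω E Δ → Chain h Z A m → (∀ j < m, D ⊆ A j) → (∀ j < m, 0 < δ j ∧ δ j ≤ 1 / 4) →
    ∑ j ∈ range m, δ j = 1 → ∑ j ∈ range m, 32 * δ j ^ 2 * cw h Z (A j) ≤ Δ / 1600 → 0 < t →
    (∀ j < m, 240 * cw h Z (A j) ≤ t ^ 2 * Δ ∧ 240 * cw h Z (A j \ D) ≤ t ^ 2 * Δ) →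
    ∃ j < m, SX (A j) (pj Ω) - SX (A j \ D) (pj Ω) ≤ 7 / 10 * SX D (pj Ω) + 2 * t + 3

/-- abstract form of the patch lemma -/
def TiltPLStmt : Prop :=
  ∀ (ι : Type) [Fintype ι] [DecidableEq ι] (d : ι → Type) [∀ x, Fintype (d x)]
    [∀ x, DecidableEq (d x)] [∀ x, Nonempty (d x)] (K : Type) [Fintype K] (h : K → Q.Op d)
    (Z : K → Finset ι) (Ω : Q.Vec (Cfg d)) (E Δ : ℝ) (A : ℕ → Finset ι) (m : ℕ) (θ s₀ t : ℝ),
    Loc h Z Ω E Δ → Chain h Z A m → 0 < θ → θ ≤ 1 / 4 →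
    ∑ j ∈ range m, 32 * θ ^ 2 * cw h Z (A j) ≤ Δ / 400 → 0 ≤ s₀ → 1 ≤ t →
    (∀ j < m, SX (A j) (pj Ω) ≤ s₀) →
    ∃ χ : Q.Vec (Cfg d), ‖χ‖ = 1 ∧
      ‖ap (seg (fun j => fr (fun x => (1 + Real.exp (10 * s₀ + 10 * t + 4) * x) ^ (-θ))
        (mg (A j) (pj χ))) 0 m) Ω‖ ≤ Real.exp (-(5 / 2 * θ * m * t))

end Crest.Agent.N336.T
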