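import Crest.Agent.N336.T.Min

/-!
# Row 336: stationarity equations of the tilt functional, `eng : EngStmt` (helper87)
-/

set_option autoImplicit false
set_option linter.unusedSectionVars false

open Matrix Finset Filter Topology
open scoped ComplexOrder MatrixOrder Matrix.Norms.L2Operator InnerProductSpace

namespace Crest.Agent.N336.T

open Crest.Agent.N336.Q Crest.Agent.N336.A

attribute [local irreducible] ev eU

lemma hasDerivAt_norm_sq {n : Type} [Fintype n] [DecidableEq n] (v ξ : Q.Vec n) :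
    HasDerivAt (fun t : ℝ => ‖v + (t : ℂ) • ξ‖ ^ 2) (2 * (⟪v, ξ⟫_ℂ).re) 0 := by
  have e : (fun t : ℝ => ‖v + (t : ℂ) • ξ‖ ^ 2) =
      fun t => ‖v‖ ^ 2 + 2 * (⟪v, ξ⟫_ℂ).re * t + ‖ξ‖ ^ 2 * t ^ 2 := by
    funext t
    rw [norm_add_sq (𝕜 := ℂ), inner_smul_right, norm_smul, mul_pow, Complex.norm_real,
      Real.norm_eq_abs, sq_abs]
    simp only [RCLike.re_to_complex, Complex.re_ofReal_mul]
    ring
  rw [e]
  have h1 := (hasDerivAt_id (0 : ℝ)).const_mul (2 * (⟪v, ξ⟫_ℂ).re)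
  have h2 := (hasDerivAt_pow 2 (0 : ℝ)).const_mul (‖ξ‖ ^ 2)
  have h3 := (h1.const_add (‖v‖ ^ 2)).fun_add h2
  simpa using h3

variable {ι : Type} [Fintype ι] [DecidableEq ι]
  {d : ι → Type} [∀ x, Fintype (d x)] [∀ x, DecidableEq (d x)] [∀ x, Nonempty (d x)]
  {s : ℝ} {I : Set ℝ} {F : ℕ → ℝ → ℝ} {A : ℕ → Finset ι} {m : ℕ} {Ω : Q.Vec (Cfg d)}
  {Y : ℕ → Q.Op d}

lemma first_var_re (hI1 : IsOpen I) (hI : I.OrdConnected) (hI0 : I ⊆ Set.Ioi 0) (hΩ : Ω ≠ 0)
    (h : Adm I A m Y) (hmin : ∀ Y', Adm I A m Y' → LL s F A m Ω Y ≤ LL s F A m Ω Y') {k : ℕ}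
    (hk : k < m) (hF : ContDiffOn ℝ 2 (F k) I) (hY : (Y k).IsHermitian) {C : Q.Op d}
    (hC : Supp (A k) C) :
    (s * ⟪ap (seg Y 0 m) Ω, ap (seg Y (k + 1) (m - (k + 1)) * C * seg Y 0 k) Ω⟫_ℂ +
      (‖ap (seg Y 0 m) Ω‖ ^ 2 * (dim d (A k)ᶜ : ℝ)⁻¹ : ℝ) *
        trace (fr (deriv (F k)) (Y k * Y k) * Y k * C)).re = 0 := by
  set c : ℝ → Q.Op d := fun t => Y k + (t : ℂ) • C with hc
  set v := ap (seg Y 0 m) Ω with hv
  set ξ := ap (seg Y (k + 1) (m - (k + 1)) * C * seg Y 0 k) Ω with hξ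
  have hv0 : 0 < ‖v‖ ^ 2 := by have := (h.log_seg hI0 hΩ s le_rfl).1; positivity
  have c0 : c 0 = Y k := by simp [hc]
  have d0 : ∀ a b : Q.Op d, HasDerivAt (fun t : ℝ => a + (t : ℂ) • b) b 0 := fun a b => by
    have := ((Complex.ofRealCLM.hasDerivAt (x := 0)).smul_const b).const_add a
    rwa [Complex.ofRealCLM_apply, Complex.ofReal_one, one_smul] at this
  have d1 : HasDerivAt c C 0 := d0 _ _
  have d2 : HasDerivAt (fun t => (c t)ᴴ) Cᴴ 0 := by
    have e : (fun t => (c t)ᴴ) = fun t : ℝ => (Y k)ᴴ + (t : ℂ) • Cᴴ := by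
      funext t; simp [hc, conjTranspose_smul]
    rw [e]
    exact d0 _ _
  obtain ⟨h1, h2⟩ := hasDerivAt_tF (c := fun t => (c t)ᴴ * c t) hF hI1 hI (d2.mul d1)
    (fun t => isHermitian_conjTranspose_mul_self _) (by simpa only [c0] using (h k hk).2)
  simp only [c0, hY.eq] at h2
  have e1 : ∀ t : ℝ, LL s F A m Ω (Function.update Y k (c t)) =
      s * Real.log (‖v + (t : ℂ) • ξ‖ ^ 2) + (dim d (A k)ᶜ : ℝ)⁻¹ * tF (F k) ((c t)ᴴ * c t) +
        ∑ j ∈ (range m).erase k, tX (A j) (F j) ((Y j)ᴴ * Y j) := fun t => by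
    rw [LL, ← Finset.add_sum_erase _ _ (mem_range.2 hk), seg_cut' _ hk, Function.update_self,
      seg_congr (Y := Function.update Y k _) (Y' := Y) fun j h1 _ =>
        Function.update_of_ne (by omega) _ _,
      seg_congr (Y := Function.update Y k _) (Y' := Y) fun j _ h1 =>
        Function.update_of_ne (by omega) _ _, hv, seg_cut' Y hk, hξ, ← ap_smul, ← ap_add,
      add_assoc, tX]
    congr 2
    · simp only [hc, Matrix.mul_add, Matrix.add_mul, Matrix.mul_smul, Matrix.smul_mul]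
    · exact Finset.sum_congr rfl fun j hj => by rw [Function.update_of_ne (ne_of_mem_erase hj)]
  have h3 : IsLocalMin (fun t : ℝ => LL s F A m Ω (Function.update Y k (c t))) 0 := by
    filter_upwards [h1] with t ht
    rw [c0, Function.update_eq_self]
    refine hmin _ fun j hj => ?_
    by_cases hjk : j = k
    · subst hjk
      rw [Function.update_self]; exact ⟨(h j hj).1.add (hC.smul _), ht⟩
    · rw [Function.update_of_ne hjk]; exact h j hj
  simp only [e1] at h3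
  have h4 := h3.hasDerivAt_eq_zero (((((hasDerivAt_norm_sq v ξ).log (by simpa using hv0.ne')
    ).const_mul s).fun_add (h2.const_mul _)).add_const _)
  have e2 : (trace (fr (deriv (F k)) (Y k * Y k) * (Cᴴ * Y k))).re =
      (trace (fr (deriv (F k)) (Y k * Y k) * Y k * C)).re := by
    have hc : Commute (fr (deriv (F k)) (Y k * Y k)) (Y k) :=
      commute_fc _ (by simpa only [hY.eq] using isHermitian_conjTranspose_mul_self (Y k))
        ((Commute.refl _).mul_left (Commute.refl _))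
    rw [← Complex.conj_re, ← Complex.star_def, ← trace_conjTranspose, conjTranspose_mul,
      conjTranspose_mul, hY.eq, conjTranspose_conjTranspose, (fr_isHermitian _ _).eq,
      trace_mul_comm, Matrix.mul_assoc]
  rw [Matrix.mul_add, trace_add, Complex.add_re, e2, ← Matrix.mul_assoc] at h4
  simp only [Complex.ofReal_zero, zero_smul, add_zero] at h4
  rw [Complex.add_re, Complex.re_ofReal_mul, Complex.re_ofReal_mul]
  have h5 := congrArg (· * (‖v‖ ^ 2 / 2)) h4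
  simp only [add_mul, zero_mul] at h5
  have hv1 : ‖v‖ ≠ 0 := fun h0 => by simp [h0] at hv0
  rw [← h5]
  field_simp
  ring

lemma first_var (hI1 : IsOpen I) (hI : I.OrdConnected) (hI0 : I ⊆ Set.Ioi 0) (hΩ : Ω ≠ 0)
    (h : Adm I A m Y) (hmin : ∀ Y', Adm I A m Y' → LL s F A m Ω Y ≤ LL s F A m Ω Y') {k : ℕ}
    (hk : k < m) (hF : ContDiffOn ℝ 2 (F k) I) (hY : (Y k).IsHermitian) {C : Q.Op d}
    (hC : Supp (A k) C) :
    s * ⟪ap (seg Y 0 m) Ω, ap (seg Y (k + 1) (m - (k + 1)) * C * seg Y 0 k) Ω⟫_ℂ +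
      (‖ap (seg Y 0 m) Ω‖ ^ 2 * (dim d (A k)ᶜ : ℝ)⁻¹ : ℝ) *
        trace (fr (deriv (F k)) (Y k * Y k) * Y k * C) = 0 := by
  have h1 := first_var_re hI1 hI hI0 hΩ h hmin hk hF hY hC
  have h2 := first_var_re hI1 hI hI0 hΩ h hmin hk hF hY (hC.smul Complex.I)
  rw [Matrix.mul_smul, Matrix.smul_mul, ap_smul, inner_smul_right, Matrix.mul_smul, trace_smul,
    smul_eq_mul, mul_left_comm, mul_left_comm _ Complex.I, ← mul_add, Complex.I_mul_re,
    neg_eq_zero] at h2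
  exact Complex.ext h1 h2

theorem eng : EngStmt := by
  intro ι _ _ d _ _ _ s I F y A m Ω hs hI1 hI hI0 hΩ hA hF hy
  obtain ⟨Y₀, h0, hmin0⟩ := exists_min (A := A) hI1 hI hI0 hΩ hF
  obtain ⟨Y, h, e, hp⟩ := exists_gauge (s := s) (F := F) (Ω := Ω) hI hI0 hA h0
  have hmin : ∀ Y', Adm I A m Y' → LL s F A m Ω Y ≤ LL s F A m Ω Y' := fun Y' h' =>
    e.le.trans (hmin0 Y' h')
  set v := ap (seg Y 0 m) Ω with hv
  have hN : 0 < ‖v‖ := norm_pos_iff.2 (h.log_seg hI0 hΩ s le_rfl).1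
  have hN' : (‖v‖ : ℂ) ≠ 0 := by exact_mod_cast hN.ne'
  have hs' : (s : ℂ) ≠ 0 := by exact_mod_cast hs
  set χ : Q.Vec (Cfg d) := (‖v‖ : ℂ)⁻¹ • v with hχ
  have hχ1 : ‖χ‖ = 1 := by
    rw [hχ, norm_smul, norm_inv, Complex.norm_real, norm_norm, inv_mul_cancel₀ hN.ne']
  have hvχ : v = (‖v‖ : ℂ) • χ := by rw [hχ, smul_smul, mul_inv_cancel₀ hN', one_smul]
  have var : ∀ k < m, ∀ C, Supp (A k) C →
      s * ⟪χ, ap (seg Y (k + 1) (m - (k + 1)) * C * seg Y 0 k) Ω⟫_ℂ = -(‖v‖ *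
        (dim d (A k)ᶜ : ℂ)⁻¹ * trace (fr (deriv (F k)) (Y k * Y k) * Y k * C)) := fun k hk C hC => by
    have := first_var hI1 hI hI0 hΩ h hmin hk (hF k hk).smooth (hp k hk).1 hC
    rw [← hv] at this
    conv_lhs at this => arg 1; rw [hvχ, inner_smul_left, Complex.conj_ofReal]
    push_cast at this
    refine mul_left_cancel₀ hN' ?_
    linear_combination this
  have hW : ∀ k < m, (Y k * Y k).IsHermitian := fun k hk => by
    simpa only [(hp k hk).1.eq] using isHermitian_conjTranspose_mul_self (Y k)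
  have v1 : ∀ k < m, ∀ X, Supp (A k) X → s * ⟪χ, ap (seg Y k (m - k) * X * seg Y 0 k) Ω⟫_ℂ =
      -(‖v‖ * (dim d (A k)ᶜ : ℂ)⁻¹ * trace (fr (deriv (F k)) (Y k * Y k) * (Y k * Y k) * X)) :=
    fun k hk X hX => by
      have := var k hk _ ((h k hk).1.mul hX)
      rw [seg_split Y hk]
      simpa only [Matrix.mul_assoc] using this
  have v2 : ∀ k < m, ∀ X, Supp (A k) X → ⟪χ, ap (seg Y k (m - k) * X * seg Y 0 k) Ω⟫_ℂ =
      ⟪χ, ap (seg Y (k + 1) (m - (k + 1)) * X * seg Y 0 (k + 1)) Ω⟫_ℂ := fun k hk X hX => by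
    refine mul_left_cancel₀ hs' ?_
    have := var k hk _ (hX.mul (h k hk).1)
    have hc : Commute (fr (deriv (F k)) (Y k * Y k)) (Y k) :=
      commute_fc _ (hW k hk) ((Commute.refl _).mul_left (Commute.refl _))
    rw [← Matrix.mul_assoc (_ * Y k), trace_mul_cycle, ← Matrix.mul_assoc (Y k), ← hc.eq] at this
    rw [v1 k hk X hX, seg_succ, zero_add]
    simpa only [Matrix.mul_assoc] using this.symm
  have phi : ∀ k ≤ m, ∀ X : Q.Op d, (k < m → Supp (A k) X) →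
      ⟪χ, ap (seg Y k (m - k) * X * seg Y 0 k) Ω⟫_ℂ = ‖v‖ * ⟪χ, ap X χ⟫_ℂ := by
    intro k hk
    induction hk using Nat.decreasingInduction with
    | self =>
      intro X _
      rw [Nat.sub_self, seg_zero, Matrix.one_mul, ap_mul, ← hv]
      conv_lhs => rw [hvχ, map_smul, inner_smul_right]
    | of_succ k hk ih =>
      intro X hX
      rw [v2 k hk X (hX hk), ih X fun h1 => (hX hk).mono (hA _ _ (by omega) h1)]
  refine ⟨Y, χ, ‖v‖, h, hmin, hχ1, hN, hvχ, fun k hk => ?_, phi⟩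
  have hWs : Supp (A k) (Y k * Y k) := (h k hk).1.mul (h k hk).1
  have e1 : mg (A k) (pj χ) = fr (fun w => -(w * deriv (F k) w) / s) (Y k * Y k) := by
    refine (supp_mg _ _).ext_trace (hWs.fc _ (hW k hk)) fun X hX => ?_
    have h1 := v1 k hk X hX
    have e2 : fr (deriv (F k)) (Y k * Y k) * (Y k * Y k) =
        (-s : ℂ) • fr (fun w => -(w * deriv (F k) w) / s) (Y k * Y k) := by
      conv_lhs => arg 2; rw [← fc_id (hW k hk)]
      rw [fc_mul, fc_smul]
      exact fc_congr fun i => by push_cast; field_simp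
    rw [phi k hk.le X fun _ => hX, e2, Matrix.smul_mul, trace_smul, trace_mul_comm] at h1
    rw [hX.trace_mul_mg, trace_mul_kb]
    have hD := dim_ne_zero (d := d) (A k)ᶜ
    refine mul_left_cancel₀ (mul_ne_zero (mul_ne_zero hs' hN') (inv_ne_zero hD)) ?_
    rw [smul_eq_mul] at h1
    field_simp at h1 ⊢
    linear_combination h1
  have hev := (h k hk).2
  rw [(hp k hk).1.eq] at hev
  rw [e1, fr, fc_fr, fc_congr (g := fun x => (Real.sqrt x : ℂ)) fun i => by rw [hy k hk _ (hev i)]]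
  have e3 : Y k * Y k = fr (fun x => x ^ 2) (Y k) := by
    rw [← fr_sq, fr_id (hp k hk).1, (hp k hk).1.eq]
  rw [e3, fc_fr]
  conv_lhs => rw [← fc_id (hp k hk).1]
  exact fc_congr fun i => by rw [Real.sqrt_sq (ev_nonneg (hp k hk) i)]

end Crest.Agent.N336.T
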