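import Crest.Agent.N336.T.Cross

/-!
# Row 336: flatness of the entanglement spectrum (item 2) (helper87)

* `flat : FlatStmt`, Chebyshev form `flat_tail`
-/

set_option autoImplicit false
set_option linter.unusedSectionVars false

open Matrix Finset
open scoped Kronecker ComplexOrder MatrixOrder Matrix.Norms.L2Operator InnerProductSpace

namespace Crest.Agent.N336.T

open Crest.Agent.N336.Q Crest.Agent.N336.A

attribute [local irreducible] ev eU

section abstract

variable {ι : Type} [Fintype ι] [DecidableEq ι]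
  {d : ι → Type} [∀ x, Fintype (d x)] [∀ x, DecidableEq (d x)] [∀ x, Nonempty (d x)]

/-- a set of sites crosses the boundary of `X` -/
def Crosses (Z X : Finset ι) : Prop := (∃ x ∈ Z, x ∈ X) ∧ ∃ x ∈ Z, x ∉ X

instance (Z X : Finset ι) : Decidable (Crosses Z X) := by unfold Crosses; infer_instance

lemma cc_eq_zero_of_not_crosses {Z X : Finset ι} {ψ : Q.Vec (Cfg d)} {h : Q.Op d} (hh : Supp Z h)
    (hc : ¬ Crosses Z X) {i j : Cfg (sub (sb X) d)} (hij : i ≠ j) : cc X ψ h i j = 0 := by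
  rw [Crosses, not_and_or] at hc
  rcases hc with hc | hc
  · exact cc_outside (hh.mono fun x hx => mem_compl.2 fun h' => hc ⟨x, hx, h'⟩) hij
  · exact cc_inside (hh.mono fun x hx => by by_contra h'; exact hc ⟨x, hx, h'⟩) hij

theorem var_le {K : Type} [Fintype K] {h : K → Q.Op d} {Z : K → Finset ι}
    (hZ : ∀ k, Supp (Z k) (h k)) {Ω : Q.Vec (Cfg d)} {E Δ : ℝ} (hg : Gap (∑ k, h k) Ω E Δ)
    (X : Finset ι) :
    Δ * ∑ i, ev (rd X Ω) i * (-Real.log (ev (rd X Ω) i) - SX X (pj Ω)) ^ 2 ≤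
      ∑ k, if Crosses (Z k) X then 8 * (dim d (Z k) : ℝ) ^ 2 * ‖h k‖ else 0 := by
  set k : ℝ → ℝ := fun x => -Real.log x - SX X (pj Ω) with hk
  set ρ := mg X (pj Ω) with hρ
  set l := ev (rd X Ω) with hl
  have hs : ∑ i, l i = 1 := by rw [hl, sum_ev_rd, hg.norm]; simp
  have hexp : ∀ f : ℝ → ℝ, ⟪Ω, ap (fr f ρ) Ω⟫_ℂ = ((∑ i, l i * f (l i) : ℝ) : ℂ) := by
    intro f
    rw [fr, hρ, fc_mg, ap_sum, inner_sum]
    push_cast
    refine Finset.sum_congr rfl fun i _ => ?_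
    rw [ap_smul, inner_smul_right, inner_su, if_pos rfl, mul_comm]
  have h1 : ⟪Ω, ap (fr k ρ) Ω⟫_ℂ = 0 := by
    rw [hexp]
    simp only [hk, mul_sub, Finset.sum_sub_distrib, ← Finset.sum_mul, hs, one_mul]
    rw [SX, ent]
    simp [Real.negMulLog, hl]
  have hkk : fr k ρ * fr k ρ = fr (fun x => k x ^ 2) ρ := by
    rw [fc_mul]; exact fc_congr fun i => by push_cast; ring
  have h2 : ‖ap (fr k ρ) Ω‖ ^ 2 = ∑ i, l i * k (l i) ^ 2 := by
    rw [norm_ap_sq, (fr_isHermitian _ _).eq, hkk, hexp, Complex.ofReal_re]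
  have h3 := hg.gap (ap (fr k ρ) Ω)
  rw [h1, h2, norm_zero, inner_ap_left, (fr_isHermitian _ _).eq, ← ap_mul, ← ap_mul, fr, hρ,
    inner_fc_mul_fc] at h3
  have h4 := inner_fc_mul_fc (X := X) (ψ := Ω) (fun x => ((k x ^ 2 : ℝ) : ℂ)) (fun _ => 1)
    (∑ k, h k)
  rw [fc_one, Matrix.mul_one, ap_mul, hg.eig, map_smul, inner_smul_right] at h4
  have h5 := inner_fc_mul_fc (X := X) (ψ := Ω) (fun _ => 1) (fun x => ((k x ^ 2 : ℝ) : ℂ))
    (∑ k, h k)
  rw [fc_one, Matrix.one_mul, ap_mul, inner_ap_right, hg.herm.eq, hg.eig, inner_smul_left,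
    Complex.conj_ofReal] at h5
  have h6 := hexp fun x => k x ^ 2
  rw [fr, hρ] at h6
  rw [h6] at h4 h5
  have h4' := congrArg Complex.re h4
  have h5' := congrArg Complex.re h5
  simp only [← Complex.ofReal_mul, Complex.ofReal_re, Complex.re_sum, mul_one, one_mul,
    Complex.re_ofReal_mul, ← hl] at h3 h4' h5'
  have h7 : ∑ i, ∑ j, k (l i) * k (l j) * (cc X Ω (∑ k, h k) i j).re -
      E * ∑ i, l i * k (l i) ^ 2 =
      ∑ a, ∑ i, ∑ j, -(1 / 2) * ((k (l i) - k (l j)) ^ 2 * (cc X Ω (h a) i j).re) := by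
    have e0 : ∑ a, ∑ i, ∑ j, -(1 / 2) * ((k (l i) - k (l j)) ^ 2 * (cc X Ω (h a) i j).re) =
        -(1 / 2) * ∑ i, ∑ j, (k (l i) - k (l j)) ^ 2 * (cc X Ω (∑ k, h k) i j).re := by
      simp only [cc_sum, Complex.re_sum, Finset.mul_sum]
      rw [Finset.sum_comm]
      exact Finset.sum_congr rfl fun i _ => Finset.sum_comm
    rw [e0]
    have : ∀ i j, (k (l i) - k (l j)) ^ 2 * (cc X Ω (∑ k, h k) i j).re =
        k (l i) ^ 2 * (cc X Ω (∑ k, h k) i j).re + k (l j) ^ 2 * (cc X Ω (∑ k, h k) i j).re -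
          2 * (k (l i) * k (l j) * (cc X Ω (∑ k, h k) i j).re) := fun i j => by ring
    have e2 : ∑ i, ∑ j, 2 * (k (l i) * k (l j) * (cc X Ω (∑ k, h k) i j).re) =
        2 * ∑ i, ∑ j, k (l i) * k (l j) * (cc X Ω (∑ k, h k) i j).re := by
      simp only [Finset.mul_sum]
    simp only [this, Finset.sum_sub_distrib, Finset.sum_add_distrib]
    rw [e2]
    linarith
  rw [h7, zero_pow two_ne_zero, sub_zero] at h3
  refine le_trans h3 (Finset.sum_le_sum fun a _ => ?_)
  split_ifs with hc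
  · have hb := cross_bound (X := X) (ψ := Ω) (hZ a) (κ := fun x y => (Real.log x - Real.log y) ^ 2)
      (K := 8) (by norm_num) fun x y hx hy => by
        rw [abs_of_nonneg (sq_nonneg _)]
        have := sq_le_exp (Real.log x - Real.log y) 2 (by norm_num)
        have := exp_abs_log_le hx hy
        linarith
    rw [hg.norm] at hb
    have : ∑ i, ∑ j, -(1 / 2) * ((k (l i) - k (l j)) ^ 2 * (cc X Ω (h a) i j).re) ≤
        1 / 2 * ∑ i, ∑ j, |(Real.log (l i) - Real.log (l j)) ^ 2| * ‖cc X Ω (h a) i j‖ := by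
      simp only [Finset.mul_sum]
      refine Finset.sum_le_sum fun i _ => Finset.sum_le_sum fun j _ => ?_
      have e : (k (l i) - k (l j)) ^ 2 = (Real.log (l i) - Real.log (l j)) ^ 2 := by
        simp only [hk]; ring
      rw [e, abs_of_nonneg (sq_nonneg _)]
      have := (neg_le_abs _).trans (Complex.abs_re_le_norm (cc X Ω (h a) i j))
      nlinarith [sq_nonneg (Real.log (l i) - Real.log (l j))]
    linarith
  · refine le_of_eq ?_
    refine Finset.sum_eq_zero fun i _ => Finset.sum_eq_zero fun j _ => ?_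
    by_cases hij : i = j
    · simp [hij]
    · simp [cc_eq_zero_of_not_crosses (hZ a) hc hij]

end abstract

variable {q R : ℕ} {J Δ : ℝ} {Λ : Type} [Fintype Λ] [DecidableEq Λ]

/-- the constant `dim ^ 2 * J` for one term -/
noncomputable def cT (q R : ℕ) (J : ℝ) : ℝ := (q : ℝ) ^ (2 * (2 * R + 1) ^ 2) * J

lemma cT_pos (hq : 1 ≤ q) (R : ℕ) (hJ : 0 < J) : 0 < cT q R J := by
  have : (0 : ℝ) < q := by exact_mod_cast hq
  unfold cT; positivity

lemma dim_sq_mul_norm_le (hq : 1 ≤ q) (s : Sys q R J Δ Λ) (X : Finset Λ) :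
    (dim (fun _ : Λ => Fin q) X : ℝ) ^ 2 * ‖s.h X‖ ≤ cT q R J := by
  have hq' : (1 : ℝ) ≤ q := by exact_mod_cast hq
  have hJ := J_nonneg s
  by_cases h : s.h X = 0
  · rw [h, norm_zero, mul_zero, cT]; positivity
  · obtain ⟨v, hv⟩ := nonempty_of_h_ne h
    have h1 := (card_le_card (sub_ball h hv)).trans (card_ball_le s v R)
    rw [dim_const, Fintype.card_fin, cT]
    push_cast
    rw [← pow_mul]
    exact mul_le_mul (pow_le_pow_right₀ hq' (by omega)) (norm_h_le s X) (norm_nonneg _)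
      (by positivity)

lemma sum_crosses_le (hq : 1 ≤ q) (s : Sys q R J Δ Λ) (A : Finset Λ) {c : ℝ} (hc : 0 ≤ c) :
    (∑ X : Finset Λ, if Crosses X A then c * (dim (fun _ : Λ => Fin q) X : ℝ) ^ 2 * ‖s.h X‖
      else 0) ≤ c * cT q R J * s.cross A := by
  classical
  rw [Sys.cross, Finset.card_filter]
  push_cast
  rw [Finset.mul_sum]
  refine Finset.sum_le_sum fun X _ => ?_
  have h1 := dim_sq_mul_norm_le hq s X
  have h2 : 0 ≤ cT q R J := le_trans (by positivity) h1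
  by_cases h : s.h X = 0
  · simp [h]
  · by_cases h' : Crosses X A
    · rw [if_pos h', if_pos ⟨h, h'⟩, mul_one, mul_assoc]; gcongr
    · rw [if_neg h']; positivity

lemma S_eq (Ω : Q.Vec (Cfg fun _ : Λ => Fin q)) (A : Finset Λ) :
    S Ω A = ent (red (sb A) (pj Ω)) := entanglementEntropy_eq Ω A

theorem flat : FlatStmt := by
  intro q R J Δ hq hJ hΔ
  refine ⟨8 * cT q R J / Δ, by have := cT_pos hq R hJ; positivity, fun Λ _ _ s A => ?_⟩
  have : ∀ _ : Λ, Nonempty (Fin q) := fun _ => ⟨⟨0, hq⟩⟩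
  have h := (var_le (h_supp s) (gap_sys s) A).trans (sum_crosses_le hq s A (by norm_num))
  rw [div_mul_eq_mul_div, le_div_iff₀ hΔ, mul_comm, S_eq]
  exact h

end Crest.Agent.N336.T
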