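import Crest.Agent.N336.T.TrD

/-!
# Row 336: existence of a minimiser of the tilt functional and the positive gauge (helper87)
-/

set_option autoImplicit false
set_option linter.unusedSectionVars false

open Matrix Finset Filter Topology
open scoped ComplexOrder MatrixOrder Matrix.Norms.L2Operator InnerProductSpace

namespace Crest.Agent.N336.T

open Crest.Agent.N336.Q Crest.Agent.N336.A

attribute [local irreducible] ev eU

lemma sum_min_le {n : Type} [Fintype n] [DecidableEq n] (f : n → ℝ) (i : n) :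
    ∑ j, min (f j) 0 ≤ f i := by
  rw [← Finset.add_sum_erase _ _ (mem_univ i)]
  have := Finset.sum_nonpos (s := univ.erase i) fun j _ => min_le_right (f j) 0
  linarith [min_le_left (f i) 0]

lemma log_step {n : Type} [Fintype n] [DecidableEq n] [Nonempty n] (s : ℝ) {Y : Matrix n n ℂ}
    (h : ∀ i, 0 < ev (Yᴴ * Y) i) {v : Q.Vec n} (hv : v ≠ 0) : ap Y v ≠ 0 ∧
      s * Real.log (‖v‖ ^ 2) + ∑ i, min (s * Real.log (ev (Yᴴ * Y) i)) 0 ≤
        s * Real.log (‖ap Y v‖ ^ 2) := by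
  obtain ⟨i, j, hb⟩ := exists_bw (isHermitian_conjTranspose_mul_self Y)
  obtain ⟨h1, h2⟩ := hb.norm_sq v
  have hv' : 0 < ‖v‖ ^ 2 := by positivity
  have h3 : 0 < ‖ap Y v‖ ^ 2 := (mul_pos (h i) hv').trans_le h1
  refine ⟨fun h0 => by simp [h0] at h3, ?_⟩
  have h4 := Real.log_le_log (mul_pos (h i) hv') h1
  have h5 := Real.log_le_log h3 h2
  rw [Real.log_mul (h i).ne' hv'.ne'] at h4
  rw [Real.log_mul (h j).ne' hv'.ne'] at h5
  have a1 := sum_min_le (fun i => s * Real.log (ev (Yᴴ * Y) i)) i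
  have a2 := sum_min_le (fun i => s * Real.log (ev (Yᴴ * Y) i)) j
  rcases le_total 0 s with hs | hs <;> nlinarith

lemma Barrier.lo {s : ℝ} {I : Set ℝ} {F : ℝ → ℝ} (h : Barrier s I F) (hI : I.OrdConnected)
    (hI0 : I ⊆ Set.Ioi 0) {c : ℝ} (hc : 0 < c) :
    ∃ l ≤ 0, ∀ w ∈ I, l ≤ c * F w + min (s * Real.log w) 0 := by
  obtain ⟨a, ha, b, hb, H⟩ := h.sub c hc 0
  have hab := hI.out ha hb
  have h1 : ContinuousOn (fun w => c * F w + min (s * Real.log w) 0) (Set.Icc a b) :=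
    (continuousOn_const.mul (h.smooth.continuousOn.mono hab)).add
      ((continuousOn_const.mul (Real.continuousOn_log.mono fun w hw =>
        (hI0 (hab hw)).ne')).inf continuousOn_const)
  obtain ⟨l, hl⟩ := isCompact_Icc.bddBelow_image h1
  refine ⟨min l 0, min_le_right _ _, fun w hw => ?_⟩
  by_cases h0 : c * F w + min (s * Real.log w) 0 ≤ 0
  · exact (min_le_left _ _).trans (hl ⟨w, H w hw h0, rfl⟩)
  · exact (min_le_right _ _).trans (not_le.1 h0).le

variable {ι : Type} [Fintype ι] [DecidableEq ι]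
  {d : ι → Type} [∀ x, Fintype (d x)] [∀ x, DecidableEq (d x)] [∀ x, Nonempty (d x)]
  {s : ℝ} {I : Set ℝ} {F : ℕ → ℝ → ℝ} {A : ℕ → Finset ι} {m : ℕ} {Ω : Q.Vec (Cfg d)}
  {Y Y' : ℕ → Q.Op d}

lemma Adm.congr (h : Adm I A m Y) (e : ∀ j < m, Y' j = Y j) : Adm I A m Y' := fun j hj => by
  rw [e j hj]; exact h j hj

lemma LL_congr (e : ∀ j < m, Y' j = Y j) : LL s F A m Ω Y' = LL s F A m Ω Y := by
  rw [LL, LL, seg_congr (Y := Y') (Y' := Y) fun j _ hj => e j (by omega)]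
  congr 1
  exact Finset.sum_congr rfl fun j hj => by rw [e j (mem_range.1 hj)]

lemma Adm.log_seg (h : Adm I A m Y) (hI0 : I ⊆ Set.Ioi 0) (hΩ : Ω ≠ 0) (s : ℝ) {l : ℕ}
    (hl : l ≤ m) : ap (seg Y 0 l) Ω ≠ 0 ∧ s * Real.log (‖Ω‖ ^ 2) +
      ∑ j ∈ range l, ∑ i, min (s * Real.log (ev ((Y j)ᴴ * Y j) i)) 0 ≤
        s * Real.log (‖ap (seg Y 0 l) Ω‖ ^ 2) := by
  induction l with
  | zero => simpa using hΩ
  | succ l ih =>
    obtain ⟨h1, h2⟩ := ih (by omega)
    obtain ⟨h3, h4⟩ := log_step s (fun i => hI0 ((h l hl).2 i)) h1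
    rw [seg_succ, zero_add, ap_mul, Finset.sum_range_succ]
    exact ⟨h3, by linarith⟩

lemma exists_unif (hI : I.OrdConnected) (hI0 : I ⊆ Set.Ioi 0) (hΩ : Ω ≠ 0)
    (hF : ∀ j < m, Barrier s I (F j)) (L₀ : ℝ) : ∃ a b : ℕ → ℝ, (∀ j < m, a j ∈ I ∧ b j ∈ I) ∧
      ∀ Y, Adm I A m Y → LL s F A m Ω Y ≤ L₀ → ∀ j < m, Bw (a j) (b j) ((Y j)ᴴ * Y j) := by
  have hc : ∀ j, 0 < (dim d (A j)ᶜ : ℝ)⁻¹ := fun j => inv_pos.2 (dim_pos_real _)
  choose! lo hlo0 hlo using fun j (hj : j < m) => (hF j hj).lo hI hI0 (hc j)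
  choose! a ha b hb H using fun j (hj : j < m) => (hF j hj).sub _ (hc j)
    (L₀ - s * Real.log (‖Ω‖ ^ 2) - ∑ j ∈ range m, ∑ _i : Cfg d, lo j)
  refine ⟨a, b, fun j hj => ⟨ha j hj, hb j hj⟩, fun Y hY hL j hj =>
    bw_of_ev (isHermitian_conjTranspose_mul_self _) fun i => H j hj _ ((hY j hj).2 i) ?_⟩
  set G : ℕ → Cfg d → ℝ := fun j i => (dim d (A j)ᶜ : ℝ)⁻¹ * F j (ev ((Y j)ᴴ * Y j) i) +
    min (s * Real.log (ev ((Y j)ᴴ * Y j) i)) 0 - lo j with hG
  have h0 : ∀ j ∈ range m, ∀ i, 0 ≤ G j i := fun j hj i =>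
    sub_nonneg.2 (hlo j (mem_range.1 hj) _ ((hY j (mem_range.1 hj)).2 i))
  have h1 : G j i ≤ ∑ j ∈ range m, ∑ i, G j i :=
    (Finset.single_le_sum (fun i _ => h0 j (mem_range.2 hj) i) (mem_univ i)).trans
      (Finset.single_le_sum (f := fun j => ∑ i, G j i)
        (fun j hj => Finset.sum_nonneg fun i _ => h0 j hj i) (mem_range.2 hj))
  have h2 := (hY.log_seg hI0 hΩ s le_rfl).2
  simp only [hG, Finset.sum_sub_distrib, Finset.sum_add_distrib, ← Finset.mul_sum] at h1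
  simp only [LL, tX, tF] at hL
  linarith [hlo0 j hj]

lemma isCompact_slot (X : Finset ι) (a b : ℝ) :
    IsCompact {Y : Q.Op d | Supp X Y ∧ Bw a b (Yᴴ * Y)} := by
  have := FiniteDimensional.proper ℂ (Q.Op d)
  refine Metric.isCompact_of_isClosed_isBounded (IsClosed.inter ?_ ?_) ?_
  · have := (alg (d := d) X).toSubalgebra.toSubmodule.closed_of_finiteDimensional
    have e : ((alg (d := d) X).toSubalgebra.toSubmodule : Set (Q.Op d)) = {M | Supp X M} :=
      Set.ext fun M => mem_alg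
    rwa [e] at this
  · exact (isClosed_bw a b).preimage (continuous_id.matrix_conjTranspose.mul continuous_id)
  · refine (isBounded_iff_forall_norm_le.2 ⟨|b| + 1, fun Y hY => ?_⟩)
    rw [← norm_ap]
    refine ContinuousLinearMap.opNorm_le_bound _ (by positivity) fun v => ?_
    refine abs_le_of_sq_le_sq' ?_ (by positivity) |>.2
    have := (hY.2.norm_sq v).2
    rw [mul_pow]
    nlinarith [le_abs_self b, abs_nonneg b, sq_nonneg ‖v‖, sq_nonneg |b|,
      mul_nonneg (sq_nonneg |b|) (sq_nonneg ‖v‖), mul_nonneg (abs_nonneg b) (sq_nonneg ‖v‖)]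

lemma continuous_seg (k l : ℕ) : Continuous fun Y : ℕ → Q.Op d => seg Y k l := by
  induction l with
  | zero => exact continuous_const
  | succ l ih => exact (continuous_apply (k + l)).mul ih

theorem exists_min (hI1 : IsOpen I) (hI : I.OrdConnected) (hI0 : I ⊆ Set.Ioi 0) (hΩ : Ω ≠ 0)
    (hF : ∀ j < m, Barrier s I (F j)) :
    ∃ Y, Adm I A m Y ∧ ∀ Y', Adm I A m Y' → LL s F A m Ω Y ≤ LL s F A m Ω Y' := by
  choose! w hw _ using fun j (hj : j < m) => (hF j hj).sub 1 one_pos 0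
  set Y₀ : ℕ → Q.Op d := fun j => (Real.sqrt (w j) : ℂ) • 1 with hY₀
  have h0 : Adm I A m Y₀ := fun j hj => ⟨(Supp.one _).smul _, fun i => by
    have : Bw (w j) (w j) ((Y₀ j)ᴴ * Y₀ j) := fun v => by
      rw [← norm_ap_sq, hY₀, ap_smul, ap_one, norm_smul, mul_pow, Complex.norm_real,
        Real.norm_eq_abs, sq_abs, Real.sq_sqrt (hI0 (hw j hj)).le]
      exact ⟨le_rfl, le_rfl⟩
    exact hI.out (hw j hj) (hw j hj) (this.ev_mem (isHermitian_conjTranspose_mul_self _) i)⟩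
  obtain ⟨a, b, hab, H⟩ := exists_unif (A := A) hI hI0 hΩ hF (LL s F A m Ω Y₀)
  set Kc : Set (ℕ → Q.Op d) := Set.pi Set.univ fun j =>
    if j < m then {Y : Q.Op d | Supp (A j) Y ∧ Bw (a j) (b j) (Yᴴ * Y)} else {1} with hKc
  have hK : IsCompact Kc := isCompact_univ_pi fun j => by
    split_ifs; exacts [isCompact_slot _ _ _, isCompact_singleton]
  have h1 : ∀ Y ∈ Kc, ∀ j < m, Supp (A j) (Y j) ∧ Bw (a j) (b j) ((Y j)ᴴ * Y j) :=
    fun Y hY j hj => by simpa [hj] using hY j trivial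
  have h2 : ∀ Y ∈ Kc, Adm I A m Y := fun Y hY j hj => ⟨(h1 Y hY j hj).1, fun i =>
    hI.out (hab j hj).1 (hab j hj).2
      ((h1 Y hY j hj).2.ev_mem (isHermitian_conjTranspose_mul_self _) i)⟩
  have h3 : ∀ Y, Adm I A m Y → LL s F A m Ω Y ≤ LL s F A m Ω Y₀ →
      ∃ Y' ∈ Kc, LL s F A m Ω Y' = LL s F A m Ω Y := fun Y hY hL =>
    ⟨fun j => if j < m then Y j else 1, fun j _ => by
      by_cases hj : j < m
      · simp only [hj, if_true]; exact ⟨(hY j hj).1, H Y hY hL j hj⟩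
      · simp [hj], LL_congr fun j hj => if_pos hj⟩
  have hc : ContinuousOn (LL s F A m Ω) Kc := by
    refine ContinuousOn.add (continuousOn_const.mul (ContinuousOn.log ?_ fun Y hY => ?_))
      (continuousOn_finsetSum _ fun j hj => continuousOn_const.mul ?_)
    · exact (((((Eng.SB.apL (Cfg d)).continuous.comp (continuous_seg 0 m)).clm_apply
        continuous_const).norm).pow 2).continuousOn
    · exact pow_ne_zero 2 (norm_ne_zero_iff.2 ((h2 Y hY).log_seg hI0 hΩ s le_rfl).1)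
    · rw [mem_range] at hj
      exact (continuousOn_tF (hF j hj).smooth hI1 (hI.out (hab j hj).1 (hab j hj).2)).comp
        ((continuous_apply j).matrix_conjTranspose.mul (continuous_apply j)).continuousOn
        fun Y hY => ⟨isHermitian_conjTranspose_mul_self _, (h1 Y hY j hj).2⟩
  obtain ⟨Y₁, hY₁, e₁⟩ := h3 Y₀ h0 le_rfl
  obtain ⟨Y, hY, hmin⟩ := hK.exists_isMinOn ⟨Y₁, hY₁⟩ hc
  refine ⟨Y, h2 Y hY, fun Y' hY' => ?_⟩
  by_cases hL : LL s F A m Ω Y' ≤ LL s F A m Ω Y₀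
  · obtain ⟨Y'', h4, e⟩ := h3 Y' hY' hL
    exact (isMinOn_iff.1 hmin _ h4).trans e.le
  · exact ((isMinOn_iff.1 hmin _ hY₁).trans e₁.le).trans (not_le.1 hL).le

/-- the positive gauge -/
theorem exists_gauge (hI : I.OrdConnected) (hI0 : I ⊆ Set.Ioi 0)
    (hA : ∀ i j, i ≤ j → j < m → A i ⊆ A j) (h : Adm I A m Y) :
    ∃ Y', Adm I A m Y' ∧ LL s F A m Ω Y' = LL s F A m Ω Y ∧ ∀ j < m, (Y' j).PosSemidef := by
  have key : ∀ l ≤ m, ∃ (V : Q.Op d) (Y' : ℕ → Q.Op d), Vᴴ * V = 1 ∧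
      (∀ j, l ≤ j → j < m → Supp (A j) V) ∧ seg Y 0 l = V * seg Y' 0 l ∧
      ∀ j < l, Supp (A j) (Y' j) ∧ (Y' j).PosSemidef ∧ (∀ i, ev ((Y' j)ᴴ * Y' j) i ∈ I) ∧
        tF (F j) ((Y' j)ᴴ * Y' j) = tF (F j) ((Y j)ᴴ * Y j) := by
    intro l
    induction l with
    | zero => exact fun _ => ⟨1, Y, by simp, fun j _ _ => Supp.one _, by simp, by simp⟩
    | succ l ih =>
      intro hl
      obtain ⟨V, Y', h1, h2, h3, h4⟩ := ih (by omega)
      have hW0 := isHermitian_conjTranspose_mul_self (Y l)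
      set W := Vᴴ * ((Y l)ᴴ * Y l) * V with hW
      have hWh : W.IsHermitian := isHermitian_conjTranspose_mul_mul V hW0
      have hev : ∀ i, ev W i ∈ I := ev_conj_mem hI hW0 (h l hl).2 h1
      have hp : ∀ i, 0 < Real.sqrt (ev W i) := fun i => Real.sqrt_pos.2 (hI0 (hev i))
      have hV := h2 l le_rfl hl
      have hWs : Supp (A l) W :=
        (hV.conjTranspose.mul ((h l hl).1.conjTranspose.mul (h l hl).1)).mul hV
      have e1 : fr (fun x => (Real.sqrt x)⁻¹) W * fr Real.sqrt W = 1 := by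
        rw [fc_mul, ← fc_one W]
        exact fc_congr fun i => by rw [← Complex.ofReal_mul, inv_mul_cancel₀ (hp i).ne']; simp
      have e2 : (fr Real.sqrt W)ᴴ * fr Real.sqrt W = W := by
        rw [fr_sq]
        conv_rhs => rw [← fc_id hWh]
        exact fc_congr fun i => by beta_reduce; rw [Real.sq_sqrt (hI0 (hev i)).le]
      have e3 : fr Real.sqrt W * fr (fun x => (Real.sqrt x)⁻¹) W = 1 := mul_eq_one_comm.1 e1
      refine ⟨Y l * V * fr (fun x => (Real.sqrt x)⁻¹) W, Function.update Y' l (fr Real.sqrt W),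
        ?_, fun j h5 h6 => ?_, ?_, fun j hj => ?_⟩
      · have : (Y l * V * fr (fun x => (Real.sqrt x)⁻¹) W)ᴴ *
            (Y l * V * fr (fun x => (Real.sqrt x)⁻¹) W) =
            fr (fun x => (Real.sqrt x)⁻¹) W * W * fr (fun x => (Real.sqrt x)⁻¹) W := by
          simp only [conjTranspose_mul, (fr_isHermitian _ W).eq, Matrix.mul_assoc]
          simp only [hW, Matrix.mul_assoc]
        rw [this]
        conv_lhs => arg 1; arg 2; rw [← e2, (fr_isHermitian _ W).eq]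
        rw [← Matrix.mul_assoc, e1, Matrix.one_mul, e3]
      · exact (((h l hl).1.mul hV).mul (hWs.fc _ hWh)).mono (hA l j (by omega) h6)
      · rw [seg_succ, seg_succ, zero_add, Function.update_self, h3,
          seg_congr (Y := Function.update Y' l _) (Y' := Y') fun j _ hj =>
            Function.update_of_ne (by omega) _ _]
        simp only [Matrix.mul_assoc]
        rw [← Matrix.mul_assoc (fr _ W), e1, Matrix.one_mul]
      · by_cases hjl : j = l
        · subst hjl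
          rw [Function.update_self, e2]
          exact ⟨hWs.fc _ hWh, fr_posSemidef fun i => (hp i).le, hev, tF_conj _ hW0 h1⟩
        · rw [Function.update_of_ne hjl]; exact h4 j (by omega)
  obtain ⟨V, Y', h1, -, h3, h4⟩ := key m le_rfl
  refine ⟨Y', fun j hj => ⟨(h4 j hj).1, (h4 j hj).2.2.1⟩, ?_, fun j hj => (h4 j hj).2.1⟩
  rw [LL, LL, h3, ap_mul, norm_ap_unitary h1]
  congr 1
  exact Finset.sum_congr rfl fun j hj => by rw [tX, tX, (h4 j (mem_range.1 hj)).2.2.2]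

end Crest.Agent.N336.T
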