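import Crest.Agent.N336.T.Seg

/-!
# Row 336: trace functions: spectral bounds, Taylor bound, continuity, derivative (helper87)
-/

set_option autoImplicit false
set_option linter.unusedSectionVars false

open Matrix Finset Filter Topology
open scoped ComplexOrder MatrixOrder Matrix.Norms.L2Operator InnerProductSpace

namespace Crest.Agent.N336.T

open Crest.Agent.N336.Q Crest.Agent.N336.A

attribute [local irreducible] ev eU

variable {n : Type} [Fintype n] [DecidableEq n] {a b : ℝ} {W : Matrix n n ℂ}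

lemma Bw.ev_mem (h : Bw a b W) (hW : W.IsHermitian) (i : n) : ev W i ∈ Set.Icc a b := by
  have := h (evec W i)
  rwa [norm_evec, one_pow, mul_one, mul_one, ← ev_eq_re_inner hW] at this

lemma bw_of_ev (hW : W.IsHermitian) (h : ∀ i, ev W i ∈ Set.Icc a b) : Bw a b W := fun v => by
  have h1 := Eng.qf_self hW v
  rw [Eng.qf] at h1
  rw [h1, ← sum_sq_inner_evec W v, Finset.mul_sum, Finset.mul_sum]
  exact ⟨Finset.sum_le_sum fun i _ => mul_le_mul_of_nonneg_right (h i).1 (sq_nonneg _),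
    Finset.sum_le_sum fun i _ => mul_le_mul_of_nonneg_right (h i).2 (sq_nonneg _)⟩

lemma exists_bw [Nonempty n] (hW : W.IsHermitian) : ∃ i j, Bw (ev W i) (ev W j) W := by
  obtain ⟨i, -, hi⟩ := Finset.exists_min_image univ (ev W) univ_nonempty
  obtain ⟨j, -, hj⟩ := Finset.exists_max_image univ (ev W) univ_nonempty
  exact ⟨i, j, bw_of_ev hW fun k => ⟨hi k (mem_univ k), hj k (mem_univ k)⟩⟩

lemma Bw.perturb (h : Bw a b W) {W' : Matrix n n ℂ} {a' b' : ℝ} (h1 : a' ≤ a - ‖W' - W‖)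
    (h2 : b + ‖W' - W‖ ≤ b') : Bw a' b' W' := fun v => by
  have e : (⟪v, ap W' v⟫_ℂ).re = (⟪v, ap W v⟫_ℂ).re + (⟪v, ap (W' - W) v⟫_ℂ).re := by
    rw [ap_sub, inner_sub_right, Complex.sub_re]; ring
  have h3 := abs_le.1 ((Complex.abs_re_le_norm _).trans (norm_inner_ap_le (W' - W) v v))
  obtain ⟨h4, h5⟩ := h v
  have h6 := sq_nonneg ‖v‖
  rw [e]
  constructor <;> nlinarith [h3.1, h3.2]

lemma Bw.conj (h : Bw a b W) {V : Matrix n n ℂ} (hV : Vᴴ * V = 1) : Bw a b (Vᴴ * W * V) :=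
  fun v => by
    have := h (ap V v)
    rwa [norm_ap_unitary hV, inner_ap_left, ← ap_mul, ← ap_mul] at this

lemma Bw.norm_sq {Y : Matrix n n ℂ} (h : Bw a b (Yᴴ * Y)) (v : Q.Vec n) :
    a * ‖v‖ ^ 2 ≤ ‖ap Y v‖ ^ 2 ∧ ‖ap Y v‖ ^ 2 ≤ b * ‖v‖ ^ 2 := by
  rw [norm_ap_sq]; exact h v

lemma isClosed_bw (a b : ℝ) : IsClosed {W : Matrix n n ℂ | Bw a b W} := by
  have hc : ∀ v : Q.Vec n, Continuous fun W : Matrix n n ℂ => (⟪v, ap W v⟫_ℂ).re := fun v =>
    Complex.continuous_re.comp (continuous_const.inner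
      (((Eng.SB.apL n).continuous).clm_apply continuous_const))
  simp only [Bw, Set.setOf_forall]
  exact isClosed_iInter fun v =>
    (isClosed_le continuous_const (hc v)).inter (isClosed_le (hc v) continuous_const)

lemma ev_conj_mem [Nonempty n] {I : Set ℝ} (hI : I.OrdConnected) (hW : W.IsHermitian)
    (h : ∀ i, ev W i ∈ I) {V : Matrix n n ℂ} (hV : Vᴴ * V = 1) (i : n) :
    ev (Vᴴ * W * V) i ∈ I := by
  obtain ⟨j, k, hb⟩ := exists_bw hW
  exact hI.out (h j) (h k) ((hb.conj hV).ev_mem (isHermitian_conjTranspose_mul_mul V hW) i)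

lemma tF_conj (F : ℝ → ℝ) (hW : W.IsHermitian) {V : Matrix n n ℂ} (hV : Vᴴ * V = 1) :
    tF F (Vᴴ * W * V) = tF F W := by
  have hV' : V * Vᴴ = 1 := mul_eq_one_comm.1 hV
  have := fc_conj (fun x => (F x : ℂ)) hW (U := Vᴴ) (by simpa using hV') (by simpa using hV)
  rw [conjTranspose_conjTranspose] at this
  rw [tF_eq, tF_eq, fr, this, trace_mul_cycle, hV', Matrix.one_mul]

variable {F : ℝ → ℝ} {I : Set ℝ}

lemma scalar_taylor (hF : ContDiffOn ℝ 2 F I) (hI : IsOpen I) (hab : Set.Icc a b ⊆ I) :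
    ∃ K : ℝ, 0 ≤ K ∧ ∀ x ∈ Set.Icc a b, ∀ y ∈ Set.Icc a b,
      |F y - F x - deriv F x * (y - x)| ≤ K * (y - x) ^ 2 := by
  have h1 : ContDiffOn ℝ 1 (deriv F) I := hF.deriv_of_isOpen hI (by norm_num)
  obtain ⟨K, hK⟩ := (h1.mono hab).exists_lipschitzOnWith (by norm_num) (convex_Icc a b)
    isCompact_Icc
  refine ⟨K, K.2, fun x hx y hy => ?_⟩
  have hs : Set.uIcc x y ⊆ Set.Icc a b := Set.uIcc_subset_Icc hx hy
  have hd : ∀ z ∈ Set.uIcc x y, HasDerivWithinAt (fun z => F z - deriv F x * z)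
      (deriv F z - deriv F x) (Set.uIcc x y) z := fun z hz => by
    have h2 : DifferentiableAt ℝ F z :=
      (hF.differentiableOn (by norm_num)).differentiableAt (hI.mem_nhds (hab (hs hz)))
    have h3 := (hasDerivAt_id z).const_mul (deriv F x)
    rw [mul_one] at h3
    exact (h2.hasDerivAt.fun_sub h3).hasDerivWithinAt
  have h3 := (convex_uIcc x y).norm_image_sub_le_of_norm_hasDerivWithin_le (C := K * |y - x|) hd
    (fun z hz => by
      have := hK.dist_le_mul z (hs hz) x hx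
      rw [Real.dist_eq, Real.dist_eq] at this
      exact this.trans (mul_le_mul_of_nonneg_left (Set.abs_sub_left_of_mem_uIcc hz) K.2))
    Set.left_mem_uIcc Set.right_mem_uIcc
  rw [Real.norm_eq_abs, Real.norm_eq_abs, mul_assoc, ← sq, sq_abs] at h3
  convert h3 using 2; ring

/-- the two-spectra form of a first order expansion -/
lemma tF_sub (F F' : ℝ → ℝ) {W W' : Matrix n n ℂ} (hW : W.IsHermitian) (hW' : W'.IsHermitian) :
    tF F W' - tF F W - (trace (fr F' W * (W' - W))).re = ∑ i, ∑ j, ov W W' i j *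
      (F (ev W' j) - F (ev W i) - F' (ev W i) * (ev W' j - ev W i)) := by
  have h1 := re_trace_fr_mul_fr F' (fun x => x) W W'
  have h2 : (trace (fr F' W * W)).re = ∑ i, F' (ev W i) * ev W i := by
    conv_lhs => arg 1; arg 1; arg 2; rw [← fc_id hW]
    rw [fc_mul, ← re_trace_fr (fun x => F' x * x)]; simp only [fr, Complex.ofReal_mul]
  rw [fr_id hW'] at h1
  rw [Matrix.mul_sub, trace_sub, Complex.sub_re, h1, h2, tF, tF, sum_ev_right F W W',
    sum_ev_left F W W', sum_ev_left (fun x => F' x * x) W W']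
  simp only [← Finset.sum_sub_distrib]
  exact Finset.sum_congr rfl fun i _ => Finset.sum_congr rfl fun j _ => by ring

lemma hs_eq {W W' : Matrix n n ℂ} (hW : W.IsHermitian) (hW' : W'.IsHermitian) :
    ∑ i, ∑ j, ov W W' i j * (ev W' j - ev W i) ^ 2 = (trace ((W' - W) * (W' - W))).re := by
  have h := tF_sub (fun x => x ^ 2) (fun x => 2 * x) hW hW'
  have e : ∀ {A : Matrix n n ℂ}, A.IsHermitian → fr (fun x => x ^ 2) A = A * A := fun {A} hA => by
    rw [← fr_sq, fr_id hA, hA.eq]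
  have e2 : fr (fun x => 2 * x) W = W + W := by
    conv_rhs => rw [← fc_id hW, fc_add]
    exact fc_congr fun i => by push_cast; ring
  rw [tF_eq, tF_eq, e hW, e hW', e2] at h
  simp only [Matrix.mul_sub, Matrix.sub_mul, Matrix.add_mul, trace_sub, trace_add, Complex.sub_re,
    Complex.add_re, trace_mul_comm W' W] at h ⊢
  have e3 : ∑ i, ∑ j, ov W W' i j * (ev W' j - ev W i) ^ 2 = ∑ i, ∑ j, ov W W' i j *
      (ev W' j ^ 2 - ev W i ^ 2 - 2 * ev W i * (ev W' j - ev W i)) :=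
    Finset.sum_congr rfl fun i _ => Finset.sum_congr rfl fun j _ => by ring
  linarith

lemma re_trace_le_norm (M : Matrix n n ℂ) : (trace M).re ≤ Fintype.card n * ‖M‖ := by
  rw [trace, Complex.re_sum, ← card_univ, ← nsmul_eq_mul]
  exact Finset.sum_le_card_nsmul _ _ _ fun i _ =>
    (Complex.re_le_norm _).trans (norm_apply_le M i i)

theorem tF_taylor (hF : ContDiffOn ℝ 2 F I) (hI : IsOpen I) (hab : Set.Icc a b ⊆ I) :
    ∃ K : ℝ, ∀ W W' : Matrix n n ℂ, W.IsHermitian → W'.IsHermitian → Bw a b W → Bw a b W' →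
      |tF F W' - tF F W - (trace (fr (deriv F) W * (W' - W))).re| ≤ K * ‖W' - W‖ ^ 2 := by
  obtain ⟨K, hK, h⟩ := scalar_taylor hF hI hab
  refine ⟨K * Fintype.card n, fun W W' hW hW' h1 h2 => ?_⟩
  rw [tF_sub F _ hW hW']
  calc _ ≤ ∑ i, ∑ j, K * (ov W W' i j * (ev W' j - ev W i) ^ 2) := by
        refine (Finset.abs_sum_le_sum_abs _ _).trans (Finset.sum_le_sum fun i _ =>
          (Finset.abs_sum_le_sum_abs _ _).trans (Finset.sum_le_sum fun j _ => ?_))
        rw [abs_mul, abs_of_nonneg (ov_nonneg _ _ _ _), mul_left_comm]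
        exact mul_le_mul_of_nonneg_left (h _ (h1.ev_mem hW i) _ (h2.ev_mem hW' j))
          (ov_nonneg _ _ _ _)
    _ = K * (trace ((W' - W) * (W' - W))).re := by
        rw [← hs_eq hW hW']; simp only [Finset.mul_sum]
    _ ≤ _ := by
        rw [mul_assoc]
        refine mul_le_mul_of_nonneg_left ((re_trace_le_norm _).trans ?_) hK
        rw [sq]
        exact mul_le_mul_of_nonneg_left (norm_mul_le _ _) (Nat.cast_nonneg _)

/-- `M ↦ re tr (G * M)` as a continuous real linear map -/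
noncomputable def rtL (G : Matrix n n ℂ) : Matrix n n ℂ →L[ℝ] ℝ :=
  LinearMap.toContinuousLinearMap
    { toFun := fun M => (trace (G * M)).re
      map_add' := fun M N => by rw [Matrix.mul_add, trace_add, Complex.add_re]
      map_smul' := fun c M => by
        rw [Matrix.mul_smul, trace_smul, Complex.smul_re]; rfl }

lemma rtL_apply (G M : Matrix n n ℂ) : rtL G M = (trace (G * M)).re := rfl

theorem hasFDerivWithinAt_tF (hF : ContDiffOn ℝ 2 F I) (hI : IsOpen I) (hab : Set.Icc a b ⊆ I)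
    (hW : W.IsHermitian) (h : Bw a b W) : HasFDerivWithinAt (tF F) (rtL (fr (deriv F) W))
      {W : Matrix n n ℂ | W.IsHermitian ∧ Bw a b W} W := by
  obtain ⟨K, hK⟩ := tF_taylor (n := n) hF hI hab
  rw [hasFDerivWithinAt_iff_isLittleO]
  refine Asymptotics.IsBigO.trans_isLittleO (g := fun W' => ‖W' - W‖ ^ 2)
    (Asymptotics.IsBigO.of_bound K ?_) ?_
  · filter_upwards [self_mem_nhdsWithin] with W' hW'
    rw [Real.norm_eq_abs, Real.norm_eq_abs, abs_of_nonneg (sq_nonneg ‖W' - W‖), rtL_apply]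
    exact hK W W' hW hW'.1 h hW'.2
  · exact (Asymptotics.isLittleO_pow_sub_sub W (by norm_num)).mono nhdsWithin_le_nhds

theorem continuousOn_tF (hF : ContDiffOn ℝ 2 F I) (hI : IsOpen I) (hab : Set.Icc a b ⊆ I) :
    ContinuousOn (tF F) {W : Matrix n n ℂ | W.IsHermitian ∧ Bw a b W} := fun _ hW =>
  (hasFDerivWithinAt_tF hF hI hab hW.1 hW.2).continuousWithinAt

/-- derivative of a trace function along a curve of Hermitian matrices -/
theorem hasDerivAt_tF [Nonempty n] (hF : ContDiffOn ℝ 2 F I) (hI : IsOpen I)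
    (hI' : I.OrdConnected) {c : ℝ → Matrix n n ℂ} {c' : Matrix n n ℂ} (hc : HasDerivAt c c' 0)
    (hh : ∀ t, (c t).IsHermitian) (h0 : ∀ i, ev (c 0) i ∈ I) :
    (∀ᶠ t in 𝓝 0, ∀ i, ev (c t) i ∈ I) ∧
      HasDerivAt (fun t => tF F (c t)) (trace (fr (deriv F) (c 0) * c')).re 0 := by
  obtain ⟨i, j, hb⟩ := exists_bw (hh 0)
  obtain ⟨r, hr, h1⟩ := Metric.isOpen_iff.1 hI _ (h0 i)
  obtain ⟨r', hr', h2⟩ := Metric.isOpen_iff.1 hI _ (h0 j)
  have hab : Set.Icc (ev (c 0) i - r / 2) (ev (c 0) j + r' / 2) ⊆ I :=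
    hI'.out (h1 (by rw [Metric.mem_ball, Real.dist_eq, abs_lt]; constructor <;> linarith))
      (h2 (by rw [Metric.mem_ball, Real.dist_eq, abs_lt]; constructor <;> linarith))
  have h3 : ∀ᶠ t in 𝓝 (0 : ℝ), dist (c t) (c 0) < min (r / 2) (r' / 2) :=
    Metric.tendsto_nhds.1 hc.continuousAt _ (by positivity)
  have h4 : ∀ᶠ t in 𝓝 (0 : ℝ), c t ∈ {W : Matrix n n ℂ | W.IsHermitian ∧
      Bw (ev (c 0) i - r / 2) (ev (c 0) j + r' / 2) W} := by
    filter_upwards [h3] with t ht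
    rw [dist_eq_norm, lt_min_iff] at ht
    exact ⟨hh t, hb.perturb (by linarith [ht.1]) (by linarith [ht.2])⟩
  refine ⟨h4.mono fun t ht k => hab (ht.2.ev_mem ht.1 k), ?_⟩
  have h5 := hasFDerivWithinAt_tF hF hI hab (hh 0) h4.self_of_nhds.2
  exact (h5.comp_hasDerivAt 0 hc h4 :)

end Crest.Agent.N336.T
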